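import Vale.Agent.P216R.SF

/-!
# P216DC: ancient solutions, kappa solutions, and the statements about them
-/

open scoped Manifold ContDiff Topology ENNReal
open Set MeasureTheory

set_option maxSynthPendingDepth 3

noncomputable section

namespace Vale.Agent.P216DC

open Vale.Agent.P216R

section defs

variable {M : Type} [TopologicalSpace M] [ChartedSpace E3 M] [MeasurableSpace M]

/-- the ball of radius `r` has volume at least `w r³` -/
def Vl (w : ℝ) (g : Ten E3 M) (U : Set M) (x : M) (r : ℝ) : Prop :=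
  ENNReal.ofReal (w * r ^ 3) ≤ vol g (bl g U x r)

/-- not collapsed at `x` at the scale `r` (time slice form, scalar curvature only) -/
def NC (κ : ℝ) (g : Ten E3 M) (U : Set M) (x : M) (r : ℝ) : Prop :=
  (∀ y ∈ bl g U x r, Sc g y ≤ 1 / r ^ 2) → Vl κ g U x r

/-- a complete connected ancient solution with nonnegative sectional curvature -/
structure Anc (g : ℝ → Ten E3 M) (U : Set M) : Prop where
  rf : RF g (Iic 0) U
  hs : Hs U
  conn : IsPreconnected U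
  cpl : ∀ t ≤ 0, Cpl (g t) U
  sec : ∀ t ≤ 0, ∀ x ∈ U, SecGe (g t) x 0

/-- bounded curvature -/
def Bdd (g : ℝ → Ten E3 M) (U : Set M) : Prop := ∃ C, ∀ t ≤ 0, ∀ x ∈ U, Sc (g t) x ≤ C

/-- a kappa solution -/
structure KS (κ : ℝ) (g : ℝ → Ten E3 M) (U : Set M) : Prop extends Anc g U where
  bdd : Bdd g U
  pos : ∀ t ≤ 0, ∀ x ∈ U, 0 < Sc (g t) x
  nc : ∀ t ≤ 0, ∀ x ∈ U, ∀ r > 0, NC κ (g t) U x r

/-- `b` splits off a line from `(U, g)` -/
structure Spl (g : Ten E3 M) (U : Set M) (b : M → ℝ) : Prop where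
  smooth : ContMDiffOn 𝓘(ℝ, E3) 𝓘(ℝ, ℝ) ∞ b U
  hess : ∀ x ∈ U, hess g b x = 0
  unit : ∀ x ∈ U, gam g b b x = 1

/-- a local solution on `P(x, 0, r, -τ)` with `sec ≥ -r⁻²`, complete up to the radius `r` -/
structure Loc (g : ℝ → Ten E3 M) (U : Set M) (x : M) (r τ : ℝ) : Prop where
  met : Met (g 0) U
  hs : Hs U
  mem : x ∈ U
  cpt : Cpt (g 0) U x r
  par : Par g U x 0 r τ
  sec : ∀ t ∈ Icc (-τ) 0, ∀ y ∈ bl (g 0) U x r, SecGe (g t) y (-(1 / r ^ 2))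

end defs

/-- bounded ancient solutions with Euclidean volume growth are flat -/
def AVR0 : Prop :=
  ∀ (M : Type) [TopologicalSpace M] [ChartedSpace E3 M] [IsManifold 𝓘(ℝ, E3) ∞ M]
    [MeasurableSpace M] [BorelSpace M] (g : ℝ → Ten E3 M) (U : Set M) (x : M) (w : ℝ),
    Anc g U → Bdd g U → x ∈ U → 0 < w → (∀ r > 0, Vl w (g 0) U x r) → Sc (g 0) x = 0

/-- kappa solutions that split are round cylinders: the scalar curvature is constant in space -/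
def RND : Prop :=
  ∀ (M : Type) [TopologicalSpace M] [ChartedSpace E3 M] [IsManifold 𝓘(ℝ, E3) ∞ M]
    [MeasurableSpace M] [BorelSpace M] (κ : ℝ) (g : ℝ → Ten E3 M) (U : Set M) (b : M → ℝ),
    0 < κ → KS κ g U → Spl (g 0) U b → ∀ t ≤ 0, ∀ x ∈ U, ∀ y ∈ U, Sc (g t) x = Sc (g t) y

/-- curvature decay from a volume bound at the final time, and the volume at earlier times -/
def DEC : Prop :=
  ∃ c > 0, ∀ w > 0, ∃ τ₀ > 0, ∃ K > 0,
    ∀ (M : Type) [TopologicalSpace M] [ChartedSpace E3 M] [IsManifold 𝓘(ℝ, E3) ∞ M]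
      [MeasurableSpace M] [BorelSpace M] (g : ℝ → Ten E3 M) (U : Set M) (x : M) (r τ : ℝ),
      0 < r → 0 < τ → τ ≤ τ₀ * r ^ 2 → Loc g U x r τ → Vl w (g 0) U x r →
      (∀ t ∈ Ioc (-τ) 0, ∀ y ∈ bl (g 0) U x (r / 4), Sc (g t) y ≤ K / (t + τ)) ∧
      ∀ t ∈ Icc (-τ) 0, bl (g 0) U x (r / 5) ⊆ bl (g t) (bl (g 0) U x r) x (r / 4) ∧
        Vl (c * w) (g t) (bl (g 0) U x r) x (r / 4)

/-- universal estimates for kappa solutions at the scale `R(x, 0) = 1` -/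
def UNI : Prop :=
  ∀ κ > 0, ∃ (v : ℝ) (C : ℝ → ℝ) (D : ℕ → ℝ → ℝ), 0 < v ∧
    ∀ (M : Type) [TopologicalSpace M] [ChartedSpace E3 M] [IsManifold 𝓘(ℝ, E3) ∞ M]
      [MeasurableSpace M] [BorelSpace M] (g : ℝ → Ten E3 M) (U : Set M) (x : M),
      KS κ g U → x ∈ U → Sc (g 0) x = 1 → Vl v (g 0) U x 1 ∧
      ∀ A, ∀ y ∈ bl (g 0) U x A, 1 / C A ≤ Sc (g 0) y ∧ ∀ t ≤ 0,
        Sc (g t) y ≤ C A ∧ ∀ k, RmB (g t) k y (D k A)

end Vale.Agent.P216DC
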