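import Vale.Agent.P216DC.Defs
import Vale.Agent.P216BF.Time

/-!
# P216DC: the blow up lemma and the change of distances (statements)
-/

open scoped Manifold ContDiff Topology ENNReal
open Set MeasureTheory

set_option maxSynthPendingDepth 3

noncomputable section

namespace Vale.Agent.P216DC

open Vale.Agent.P216R Vale.Agent.P216BF

/-- no large almost nonnegatively curved region with bounded curvature, `R = 1` at the centre and
Euclidean volume -/
def BL : Prop :=
  ∀ w > 0, ∃ A > 0, ∀ (M : Type) [TopologicalSpace M] [ChartedSpace E3 M]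
    [IsManifold 𝓘(ℝ, E3) ∞ M] [MeasurableSpace M] [BorelSpace M] (g : ℝ → Ten E3 M) (U : Set M)
    (x : M), Loc g U x A A → (∀ t ∈ Icc (-A) 0, ∀ y ∈ bl (g 0) U x A, Sc (g t) y ≤ 4) →
    Vl w (g 0) U x A → Sc (g 0) x ≠ 1

/-- distances decrease at most at the rate `c √K` where `Ric ≤ K` -/
def DIST : Prop :=
  ∃ c > 0, ∀ (M : Type) [TopologicalSpace M] [ChartedSpace E3 M] [IsManifold 𝓘(ℝ, E3) ∞ M]
    (g : ℝ → Ten E3 M) (V : Set M) (x y : M) (a b r K : ℝ), a ≤ b → 0 ≤ K → RF g (Icc a b) V →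
    Hs V → (∀ t ∈ Icc a b, Cpt (g t) V x r ∧ ∀ z ∈ bl (g t) V x r, RicLe (g t) z K) →
    ed (g b) V x y + ENNReal.ofReal (c * √K * (b - a)) < ENNReal.ofReal r →
    ed (g a) V x y ≤ ed (g b) V x y + ENNReal.ofReal (c * √K * (b - a))

/-- volume ratios of concentric balls for almost nonnegative curvature -/
def BGC : Prop :=
  ∃ c > 0, ∀ (M : Type) [TopologicalSpace M] [ChartedSpace E3 M] [IsManifold 𝓘(ℝ, E3) ∞ M]
    [MeasurableSpace M] [BorelSpace M] (g : Ten E3 M) (U : Set M) (x : M) (w r s : ℝ),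
    Met g U → Hs U → Cpt g U x r → (∀ y ∈ bl g U x r, SecGe g y (-(1 / r ^ 2))) → 0 ≤ w → 0 < s →
    s ≤ r → Vl w g U x r → Vl (c * w) g U x s

/-- bounded ancient solutions: a thick ball has bounded curvature at its centre -/
def TH : Prop :=
  ∀ w > 0, ∃ K > 0, ∀ (M : Type) [TopologicalSpace M] [ChartedSpace E3 M]
    [IsManifold 𝓘(ℝ, E3) ∞ M] [MeasurableSpace M] [BorelSpace M] (g : ℝ → Ten E3 M) (U : Set M)
    (x : M) (r : ℝ), Anc g U → Bdd g U → x ∈ U → 0 < r → Vl w (g 0) U x r →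
    Sc (g 0) x ≤ K / r ^ 2

end Vale.Agent.P216DC
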