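import Vale.Agent.P216DC.LimF
import Vale.Agent.P216K.Riem
import Vale.Agent.P216FA.Defs
import Vale.Agent.P216SG.Neck
import Vale.Agent.P216U.Back
import Vale.Agent.P216U.Dist

/-!
# P216DC: almost lines give lines, and necks of a limit give necks
-/

open scoped Manifold ContDiff Topology ENNReal
open Set MeasureTheory Filter

set_option maxSynthPendingDepth 3
set_option linter.unusedSectionVars false

noncomputable section

namespace Vale.Agent.P216DC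

open Vale.Agent.P216R Vale.Agent.P216U Vale.Agent.P216K
open Vale.Agent.P216FA (AL)
open Vale.Agent.P216SG (Cen Neck anl cann)

theorem nn_al {X : Type} [MetricSpace X] (hX : NN X) {x p q : X} {l e : ℝ} (hl : 0 < l)
    (he : 0 ≤ e) (hp : l ≤ dist x p) (hq : l ≤ dist x q)
    (h : dist x p + dist x q ≤ dist p q + e) :
    ∃ γ : ℝ → X, γ 0 = x ∧ ∀ s ∈ Icc (-l) l, ∀ t ∈ Icc (-l) l,
      dist (γ s) (γ t) ≤ |s - t| ∧ (1 - e / l) * (s - t) ^ 2 ≤ dist (γ s) (γ t) ^ 2 := by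
  obtain ⟨α, a0, a1, a2⟩ := hX.seg x p
  obtain ⟨β, b0, b1, b2⟩ := hX.seg x q
  have e0 : 0 ≤ e / l := by positivity
  have eq : ∀ {D s t : ℝ}, D = |s - t| → D ≤ |s - t| ∧ (1 - e / l) * (s - t) ^ 2 ≤ D ^ 2 :=
    fun {D s t} hD => ⟨hD.le, by rw [hD, sq_abs]; nlinarith [sq_nonneg (s - t)]⟩
  have key : ∀ s ∈ Icc 0 l, ∀ t ∈ Ioc 0 l,
      dist (α s) (β t) ≤ s + t ∧ (1 - e / l) * (s + t) ^ 2 ≤ dist (α s) (β t) ^ 2 := by
    intro s hs t ht
    have d1 := a2.dist_zero ⟨le_rfl, dist_nonneg⟩ ⟨hs.1, hs.2.trans hp⟩ hs.1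
    have d2 := b2.dist_zero ⟨le_rfl, dist_nonneg⟩ ⟨ht.1.le, ht.2.trans hq⟩ ht.1.le
    rw [a0] at d1
    rw [b0] at d2
    refine ⟨by linarith [dist_triangle_left (α s) (β t) x], ?_⟩
    rcases hs.1.eq_or_lt with rfl | s0
    · rw [a0, d2, zero_add]; nlinarith [sq_nonneg t]
    rcases le_total l e with h1 | h1
    · have : 1 ≤ e / l := (one_le_div hl).2 h1
      nlinarith [sq_nonneg (s + t), sq_nonneg (dist (α s) (β t))]
    have k := hX.ce_mono a2 b2 (a0.trans b0.symm) s0 (hs.2.trans hp) ht.1 (ht.2.trans hq)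
    have p0 := hl.trans_le hp
    have q0 := hl.trans_le hq
    have k2 : ce α β (dist x p) (dist x q) / (dist x p * dist x q) ≤ -2 + 4 * (e / l) := by
      rw [div_le_iff₀ (mul_pos p0 q0), ce, a1, b1]
      have h2 : (dist x p + dist x q - e) ^ 2 ≤ dist p q ^ 2 :=
        pow_le_pow_left₀ (by linarith) (by linarith) 2
      have h3 : e * dist x p ≤ e / l * (dist x p * dist x q) := by
        rw [div_mul_eq_mul_div, le_div_iff₀ hl, mul_assoc]; gcongr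
      have h4 : e * dist x q ≤ e / l * (dist x p * dist x q) := by
        rw [div_mul_eq_mul_div, le_div_iff₀ hl, mul_assoc, mul_comm (dist x p)]; gcongr
      nlinarith [sq_nonneg e]
    have k3 := (div_le_iff₀ (mul_pos s0 ht.1)).1 (k.trans k2)
    rw [ce] at k3
    nlinarith [mul_nonneg e0 (sq_nonneg (s - t))]
  refine ⟨fun s => if 0 ≤ s then α s else β (-s), by simp [a0], fun s hs t ht => ?_⟩
  by_cases s0 : 0 ≤ s <;> by_cases t0 : 0 ≤ t <;> simp only [s0, t0, if_true, if_false]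
  · exact eq (a2 s ⟨s0, hs.2.trans hp⟩ t ⟨t0, ht.2.trans hp⟩)
  · have := key s ⟨s0, hs.2⟩ (-t) ⟨by linarith, by linarith [ht.1]⟩
    rwa [← sub_eq_add_neg, ← abs_of_nonneg (show 0 ≤ s - t by linarith), sq_abs] at this
  · have := key t ⟨t0, ht.2⟩ (-s) ⟨by linarith, by linarith [hs.1]⟩
    rwa [← sub_eq_add_neg, ← abs_of_nonneg (show 0 ≤ t - s by linarith), abs_sub_comm, sq_abs,
      dist_comm] at this
  · refine eq ((b2 (-s) ⟨by linarith, by linarith [hs.1]⟩ (-t) ⟨by linarith, by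
      linarith [ht.1]⟩).trans ?_)
    rw [neg_sub_neg, abs_sub_comm]

theorem tendsto_of_al {ι : Type} {l : Filter ι} {a d : ι → ℝ} {e u : ℝ} (ha : Tendsto a l atTop)
    (h : ∀ᶠ n in l, 0 ≤ d n ∧ d n ≤ |u| ∧ (1 - e / a n) * u ^ 2 ≤ d n ^ 2) :
    Tendsto d l (𝓝 |u|) := by
  have h1 : Tendsto (fun n => √((1 - e / a n) * u ^ 2)) l (𝓝 |u|) := by
    have := (((ha.const_div_atTop e).const_sub 1).mul_const (u ^ 2)).sqrt
    rwa [sub_zero, one_mul, Real.sqrt_sq_eq_abs] at this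
  exact tendsto_of_tendsto_of_tendsto_of_le_of_le' h1 tendsto_const_nhds
    (h.mono fun n hn => Real.sqrt_le_iff.2 ⟨hn.1, hn.2.2⟩) (h.mono fun n hn => hn.2.1)

section one

variable {M : Type} [TopologicalSpace M] [ChartedSpace E3 M] [IsManifold 𝓘(ℝ, E3) ∞ M]
  {g : Ten E3 M} {U : Set M} {x : M} {l e : ℝ}

theorem al_curve (h : MS g U) (hc : Cpl g U) (h0 : ∀ y ∈ U, SecGe g y 0) (hx : x ∈ U)
    (hl : 0 < l) (he : 0 ≤ e) (hA : AL g U x l e) : ∃ γ : ℝ → Sp h, (γ 0).val = x ∧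
      ∀ s ∈ Icc (-l) l, ∀ t ∈ Icc (-l) l,
      dist (γ s) (γ t) ≤ |s - t| ∧ (1 - e / l) * (s - t) ^ 2 ≤ dist (γ s) (γ t) ^ 2 := by
  obtain ⟨p, hp, q, hq, h1, h2, h3⟩ := hA
  obtain ⟨γ, h4, h5⟩ := nn_al (nn_sp h hc h0) (x := Sp.mk h x hx) (p := Sp.mk h p hp)
    (q := Sp.mk h q hq) hl he h1 h2 h3
  exact ⟨γ, congrArg Sp.val h4, h5⟩

theorem spl_of_line (hg : Met g U) (hH : Hs U) (hU : IsPreconnected U) (hc : Cpl g U)
    (h0 : ∀ y ∈ U, SecGe g y 0) {c : ℝ → M} (h : EIso g U c univ) :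
    ∃ b, Spl g U b ∧ ∀ t, b (c t) = t :=
  let ⟨b, h1, h2, h3, h4, _⟩ := P216CP.split E3 M g U c hg hH hU hc h0 fun s t => h s trivial t trivial
  ⟨b, ⟨h1, h2, h3⟩, h4⟩

/-- arbitrarily long almost lines through a point give a splitting -/
theorem spl_of_al (hg : Met g U) (hH : Hs U) (hU : IsPreconnected U) (hc : Cpl g U)
    (h0 : ∀ y ∈ U, SecGe g y 0) (hx : x ∈ U) (he : 0 ≤ e) (hA : ∀ l, AL g U x l e) :
    ∃ b, Spl g U b := by
  have h := hg.ms hH hU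
  have := Sp.proper h hc
  choose γ h1 h2 using fun n : ℕ => al_curve h hc h0 hx (l := n + 1) (by positivity) he (hA _)
  have ha : Tendsto (fun n : ℕ => (n : ℝ) + 1) (hyperfilter ℕ) atTop :=
    (tendsto_atTop_add_const_right _ 1 tendsto_natCast_atTop_atTop).mono_left
      Nat.hyperfilter_le_atTop
  have ev : ∀ s : ℝ, ∀ᶠ n : ℕ in hyperfilter ℕ, s ∈ Icc (-((n : ℝ) + 1)) (n + 1) := fun s =>
    (ha.eventually_ge_atTop |s|).mono fun n hn => abs_le.1 hn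
  have k : ∀ s, ∃ p, Tendsto (γ · s) (hyperfilter ℕ) (𝓝 p) := fun s => by
    obtain ⟨p, -, hp⟩ := (isCompact_closedBall (Sp.mk h x hx) |s|).ultrafilter_le_nhds
      ((hyperfilter ℕ).map (γ · s)) (le_principal_iff.2 (((ev s).and (ev 0)).mono fun n hn => by
        have := (h2 n s hn.1 0 hn.2).1
        rwa [sub_zero, show γ n 0 = Sp.mk h x hx from Sp.ext (h1 n)] at this))
    exact ⟨p, hp⟩
  choose c hc' using k
  have : Iso c univ := fun s _ t _ => tendsto_nhds_unique ((hc' s).dist (hc' t))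
    (tendsto_of_al ha (((ev s).and (ev t)).mono fun n hn => ⟨dist_nonneg, h2 n s hn.1 t hn.2⟩))
  exact (spl_of_line hg hH hU hc h0 this.eIso).imp fun _ h => h.1

end one

variable {ι : Type} {M : ι → Type} [∀ n, TopologicalSpace (M n)] [∀ n, ChartedSpace E3 (M n)]
  [∀ n, IsManifold 𝓘(ℝ, E3) ∞ (M n)] {U : ∀ n, Set (M n)} {g : ∀ n, Ten E3 (M n)} {x : ∀ n, M n}
  {l : Ultrafilter ι}

/-- longer and longer almost lines converge to a line -/
theorem lim_line (L : Lim l U g x ⊤) (h : ∀ n, MS (g n) (U n)) (hc : ∀ n, Cpl (g n) (U n))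
    (h0 : ∀ n, ∀ y ∈ U n, SecGe (g n) y 0) (hx : ∀ n, x n ∈ U n) {a : ι → ℝ} {e : ℝ}
    (ha : Tendsto a l atTop) (hl : ∀ n, 0 < a n) (he : 0 ≤ e)
    (hA : ∀ n, AL (g n) (U n) (x n) (a n) e) : ∃ c, c 0 = L.o ∧ EIso L.h univ c univ := by
  choose γ h1 h2 using fun n => al_curve (h n) (hc n) (h0 n) (hx n) (hl n) he (hA n)
  have ev : ∀ s : ℝ, ∀ᶠ n in (l : Filter ι), s ∈ Icc (-a n) (a n) := fun s =>
    (ha.eventually_ge_atTop |s|).mono fun n hn => abs_le.1 hn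
  obtain ⟨c, c1, c2⟩ := L.exists_curve (Eventually.of_forall fun n => (h n).hs) (J := univ)
    (γ := fun n s => (γ n s).val) (fun s _ => ⟨ENNReal.ofReal |0 - s|, ENNReal.ofReal_lt_top,
      ((ev 0).and (ev s)).mono fun n hn => by
        rw [← h1 n, ← Sp.edist_eq, edist_dist]
        exact ENNReal.ofReal_le_ofReal (h2 n 0 hn.1 s hn.2).1⟩) fun s _ t _ => by
    simp only [← Sp.edist_eq, edist_dist]
    exact ENNReal.tendsto_ofReal (tendsto_of_al ha (((ev s).and (ev t)).mono fun n hn =>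
      ⟨dist_nonneg, h2 n s hn.1 t hn.2⟩))
  exact ⟨c, L.conv.ap_unique (hs_of_t2 _) trivial trivial (c1 0 trivial)
    (L.ap.congr (Eventually.of_forall fun n => (h1 n).symm)), c2⟩

/-- a neck of the limit gives necks -/
theorem conv_cen {X : Type} [TopologicalSpace X] [ChartedSpace E3 X] [IsManifold 𝓘(ℝ, E3) ∞ X]
    {F : ∀ n, X → M n} {h : Ten E3 X} {W : Set X} {p : X} {σ δ ε : ℝ} (hc : Conv l U g F h W)
    (H : Cen h W p σ δ) (hδ : δ < ε) : ∀ᶠ n in (l : Filter ι), Cen (g n) (U n) (F n p) σ ε := by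
  obtain ⟨φ, h1, u, hu, rfl⟩ := H
  have h2 : ε⁻¹ < δ⁻¹ := inv_strictAnti₀ h1.dpos hδ
  obtain ⟨A, a1, -, a2⟩ := hc.emb.comp h1.emb.ld h1.emb.inj h1.emb.mem _
    P216SG.isCompact_cann (P216SG.cann_sub_anl h2)
  have s := P216SG.anl_sub_cann.trans a1
  filter_upwards [h1.ev (ψ := fun n => F n ∘ φ) (W := U) (k := g) hδ (a2.mono fun n hn =>
    ⟨hn.1.mono P216SG.isOpen_anl s, hn.2.1.mono s, hn.2.2.mono_left s⟩)
    (hc.param h1.emb.ld h1.emb.mem)] with n hn using ⟨_, hn, u, hu, rfl⟩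

end Vale.Agent.P216DC
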