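import Vale.Agent.P216DC.LimS
import Vale.Agent.P216U.Cmp
import Vale.Agent.P216S.Lim
import Vale.Agent.P216BF.Ball
import Vale.Agent.P216R.Nat

/-!
# P216DC: curvature under smooth convergence, time slices of a limit flow
-/

open scoped Manifold ContDiff Topology ENNReal
open Set MeasureTheory Filter

set_option maxSynthPendingDepth 3
set_option linter.unusedSectionVars false

noncomputable section

namespace Vale.Agent.P216DC

open Vale.Agent.P216R Vale.Agent.P216U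

variable {ι E : Type} [NormedAddCommGroup E] [NormedSpace ℝ E]

theorem cv_num {F : Type} [NormedAddCommGroup F] [NormedSpace ℝ F] {l : Filter ι} {S : Set E}
    {τ : ι → F} {t : F} (h : Tendsto τ l (𝓝 t)) : Cv l S (fun n _ => τ n) fun _ => t := by
  refine ⟨fun x _ k => ⟨‖t‖ + 1, ?_⟩, fun _ _ => h⟩
  filter_upwards [tendsto_fst.eventually (h.norm.eventually (gt_mem_nhds (lt_add_one ‖t‖)))]
    with q hq
  refine ⟨contDiffWithinAt_const, fun j _ => ?_⟩
  rcases eq_or_ne j 0 with rfl | hj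
  · simpa using hq.le
  · rw [iteratedFDerivWithin_const_of_ne hj]
    simp only [Pi.zero_apply, norm_zero]
    positivity

theorem Bk.nice {I : Set ℝ} (h : Bk I) : Nice I := by
  obtain ⟨s, h1, h2⟩ := h.ext 0 h.zero
  refine .of_convex (convex_iff_ordConnected.2 ⟨fun a ha b hb t ht =>
    h.icc ha ⟨ht.1, ht.2.trans (h.le b hb)⟩⟩) ⟨s / 2, interior_mono h2 ?_⟩
  rw [interior_Icc]
  constructor <;> linarith

variable [FiniteDimensional ℝ E] {X : Type} [TopologicalSpace X] [ChartedSpace E X]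
  [IsManifold 𝓘(ℝ, E) ∞ X]

/-- time slices of a converging family, at moving times -/
theorem fcv_slice {l : Filter ι} {g : ι → ℝ → Ten E X} {h : ℝ → Ten E X} {I : Set ℝ} {W : Set X}
    (hc : FCv l g h I W) (hI : Nice I) (hW : IsOpen W) {t : ℝ} (ht : t ∈ I) {τ : ι → ℝ}
    (hτ : Tendsto τ l (𝓝[I] t)) : TCv l (fun n => g n (τ n)) (h t) W := fun a => by
  have hS := Nice.of_isOpen (isOpen_dom (E := E) a hW)
  have h1 := (cv_num (S := dom E a W) (hτ.mono_right nhdsWithin_le_nhds)).prodMk hS.ud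
    (Cv.const (l := l) hS.ud contDiffOn_id)
  have h2 := Cv.comp' hS (hI.prod hS) (hc a) h1 (fun y hy => ⟨ht, hy⟩) fun y _ => by
    filter_upwards [tendsto_fst.eventually (hτ.eventually self_mem_nhdsWithin),
      tendsto_snd.eventually self_mem_nhdsWithin] with q h2 h3 using ⟨h2, h3⟩
  exact h2

section tcv

variable {l : Ultrafilter ι} {g : ι → Ten E X} {h : Ten E X} {W : Set X} {y : X}

theorem tcv_sc (hc : TCv l g h W) (hm : Met h W) (hy : y ∈ W)
    (hg : ∀ᶠ q in (l : Filter ι) ×ˢ 𝓝 y, ∃ V, Met (g q.1) V ∧ q.2 ∈ V) :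
    Tendsto (fun q : ι × X => Sc (g q.1) q.2) ((l : Filter ι) ×ˢ 𝓝 y) (𝓝 (Sc h y)) := by
  have h1 := ((P216S.cv_scG (hc y) (hm.isMetricOn y)).loc
    ((isOpen_dom y hm.isOpen).mem_nhds (pt_mem_dom hy))).tendsto.comp
    (tendsto_chart (l : Filter ι) (mem_chart_source E y))
  refine h1.congr' ?_
  filter_upwards [hg, tendsto_snd.eventually
    ((chartAt E y).open_source.mem_nhds (mem_chart_source E y))] with q ⟨V, h2, h3⟩ h4
  exact (h2.Sc_chart h3 h4).symm

theorem tcv_secN (hc : TCv l g h W) (hm : Met h W) (hy : y ∈ W)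
    (hg : ∀ᶠ n in (l : Filter ι), ∃ V, Met (g n) V ∧ y ∈ V) (v w : E) :
    Tendsto (fun n => secN (g n) y v w) l (𝓝 (secN h y v w)) := by
  have h1 := (P216S.cv_curvB (hc y) (hm.isMetricOn y)).lim _ (pt_mem_dom hy)
  have h2 : Continuous fun p : Bil E × (E →L[ℝ] E →L[ℝ] E →L[ℝ] E) => p.1 (p.2 v w w) v := by
    fun_prop
  rw [P216BF.secN_eq hm hy]
  refine ((h2.tendsto _).comp ((hc.lim hy).prodMk_nhds h1)).congr' ?_
  filter_upwards [hg] with n ⟨V, h3, h4⟩
  rw [P216BF.secN_eq h3 h4]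
  rfl

theorem tcv_secGe (hc : TCv l g h W) (hm : Met h W) (hy : y ∈ W)
    (hg : ∀ᶠ n in (l : Filter ι), ∃ V, Met (g n) V ∧ y ∈ V) {κ : ι → ℝ} {k : ℝ}
    (hκ : Tendsto κ l (𝓝 k)) (hs : ∀ᶠ n in (l : Filter ι), SecGe (g n) y (κ n)) : SecGe h y k :=
  fun v w => by
  have h2 : Continuous fun B : Bil E => B v v * B w w - B v w ^ 2 := by fun_prop
  exact le_of_tendsto_of_tendsto (hκ.mul ((h2.tendsto _).comp (hc.lim hy)))
    (tcv_secN hc hm hy hg v w) (hs.mono fun n hn => hn v w)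

end tcv

variable {M : ι → Type} [∀ n, TopologicalSpace (M n)] [∀ n, ChartedSpace E (M n)]
  [∀ n, IsManifold 𝓘(ℝ, E) ∞ (M n)] {U U' : ∀ n, Set (M n)} {g : ∀ n, Ten E (M n)}
  {F : ∀ n, X → M n} {h : Ten E X} {W W' K : Set X} {p : X}

theorem emb_of_maps {l : Filter ι} (he : Emb E l U F W) (hW : IsOpen W') (hs : W' ⊆ W)
    (hm : ∀ K, IsCompact K → K ⊆ W' → ∀ᶠ n in l, MapsTo (F n) K (U' n)) : Emb E l U' F W' :=
  fun K hK hKW => by
  obtain ⟨V, K', h1, h2, h3, h4, h5⟩ := exists_between_compact E hK hW hKW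
  obtain ⟨V', h6, -, h7⟩ := he K' h2 (h5.trans hs)
  refine ⟨V, h3, h4.trans h5, ?_⟩
  filter_upwards [h7, hm K' h2 h5] with n ⟨a, b, _⟩ d
  exact ⟨a.mono h1 (h4.trans h6), b.mono (h4.trans h6), d.mono_left h4⟩

/-- near a point of the limit the maps `F n` are local isometries for the pulled back metrics -/
theorem emb_li {l : Filter ι} (he : Emb E l U F W) (hg : ∀ᶠ n in l, Met (g n) (U n)) (hp : p ∈ W) :
    ∀ᶠ q in l ×ˢ 𝓝 p, LI (comap (F q.1) (g q.1)) (g q.1) (F q.1) q.2 := by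
  obtain ⟨V, h1, -, h2⟩ := he {p} isCompact_singleton (singleton_subset_iff.2 hp)
  rcases l.eq_or_neBot with rfl | _
  · simp
  obtain ⟨n₀, h3, -⟩ := h2.exists
  filter_upwards [tendsto_fst.eventually (h2.and hg),
    tendsto_snd.eventually (h3.isOpen.mem_nhds (h1 rfl))] with q ⟨⟨a, _, c⟩, d⟩ h4
  exact li_comap d a h4 (c h4)

theorem ev_self {l : Filter ι} {P : ι × X → Prop} (h : ∀ᶠ q in l ×ˢ 𝓝 p, P q) :
    ∀ᶠ n in l, P (n, p) := (tendsto_id.prodMk (tendsto_const_pure.mono_right (pure_le_nhds p))) h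

section conv

variable {l : Ultrafilter ι}

/-- the scalar curvature converges at moving points -/
theorem conv_sc (hc : Conv l U g F h W) (hg : ∀ᶠ n in (l : Filter ι), Met (g n) (U n))
    (hp : p ∈ W) :
    Tendsto (fun q : ι × X => Sc (g q.1) (F q.1 q.2)) ((l : Filter ι) ×ˢ 𝓝 p) (𝓝 (Sc h p)) :=
  have h1 := emb_li hc.emb hg hp
  (tcv_sc hc.cv hc.met hp (h1.mono fun _ H => H.met')).congr' (h1.mono fun _ H => H.Sc)

theorem conv_sc_pt (hc : Conv l U g F h W) (hg : ∀ᶠ n in (l : Filter ι), Met (g n) (U n))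
    (hp : p ∈ W) : Tendsto (fun n => Sc (g n) (F n p)) l (𝓝 (Sc h p)) :=
  fun _ hs => ev_self (P := fun q => Sc (g q.1) (F q.1 q.2) ∈ _) (conv_sc hc hg hp hs)

theorem sc_continuousAt (hm : Met h W) (hp : p ∈ W) : ContinuousAt (Sc h) p := by
  have h1 := (((P216S.scG_cd (hm.isMetricOn p)).contDiffAt ((isOpen_dom p hm.isOpen).mem_nhds
    (pt_mem_dom hp))).continuousAt).comp (f := chartAt E p)
    ((chartAt E p).continuousAt (mem_chart_source E p))
  refine h1.congr ?_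
  filter_upwards [(chartAt E p).open_source.mem_nhds (mem_chart_source E p),
    hm.isOpen.mem_nhds hp] with z h2 h3 using (hm.Sc_chart h3 h2).symm

/-- the scalar curvature converges uniformly on compact sets -/
theorem conv_sc_unif (hc : Conv l U g F h W) (hg : ∀ᶠ n in (l : Filter ι), Met (g n) (U n))
    (hK : IsCompact K) (hs : K ⊆ W) {ε : ℝ} (hε : 0 < ε) :
    ∀ᶠ n in (l : Filter ι), ∀ p ∈ K, |Sc (g n) (F n p) - Sc h p| < ε :=
  ev_compact (S := univ) (P := fun q => |Sc (g q.1) (F q.1 q.2) - Sc h q.2| < ε) hK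
    (subset_univ K) fun y hy => by
    rw [nhdsWithin_univ]
    have h1 := ((conv_sc hc hg (hs hy)).sub
      ((sc_continuousAt hc.met (hs hy)).tendsto.comp tendsto_snd)).abs
    rw [sub_self, abs_zero] at h1
    exact h1.eventually (gt_mem_nhds hε)

theorem conv_secGe (hc : Conv l U g F h W) (hg : ∀ᶠ n in (l : Filter ι), Met (g n) (U n))
    (hp : p ∈ W) {κ : ι → ℝ} {k : ℝ} (hκ : Tendsto κ l (𝓝 k))
    (hs : ∀ᶠ n in (l : Filter ι), SecGe (g n) (F n p) (κ n)) : SecGe h p k :=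
  have h1 := ev_self (emb_li hc.emb hg hp)
  tcv_secGe hc.cv hc.met hp (h1.mono fun _ H => H.met') hκ
    ((h1.and hs).mono fun _ H => (H.1.SecGe _).2 H.2)

end conv

/-- compact subsets of a ball of the limit are mapped into the corresponding balls -/
theorem lim_maps {l : Filter ι} {x : ∀ n, M n} {ρ : ℝ≥0∞} (L : Lim l U g x ρ) {K : Set L.X}
    (hK : IsCompact K) {r : ℝ≥0∞} (hr : ∀ p ∈ K, ed L.h univ L.o p < r) :
    ∀ᶠ n in l, ∀ p ∈ K, ed (g n) (U n) (x n) (L.F n p) < r := by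
  refine ev_compact (S := univ) (P := fun q => ed (g q.1) (U q.1) (x q.1) (L.F q.1 q.2) < r) hK
    (subset_univ K) fun p hp => ?_
  rw [nhdsWithin_univ]
  obtain ⟨r', h1, h2⟩ := exists_between (lt_min (hr p hp) (L.lt p))
  obtain ⟨s, h3, h4⟩ := exists_mul_lt (lt_min_iff.1 h2).1
  obtain ⟨V, -, h5, -, h6⟩ := L.conv.ai (L.cpt r' (lt_min_iff.1 h2).2) (subset_univ _)
  filter_upwards [tendsto_fst.eventually ((h6 s h3).and L.base),
    tendsto_snd.eventually ((L.conv.met.isOpen_ball L.o r').mem_nhds h1)] with q ⟨a, b⟩ c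
  rw [← b]
  refine (a.ed_le (by linarith) _ _).trans_lt (lt_of_le_of_lt ?_ h4)
  gcongr
  exact (ed_ball (fun z hz => h5 (le_of_lt hz)) c).trans (le_of_lt c)

end Vale.Agent.P216DC
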