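import Vale.Agent.P216DC.Defs

/-!
# P216DC: pointwise bounds for the derivatives of the scalar curvature (statements)
-/

open scoped Manifold ContDiff Topology ENNReal
open Set MeasureTheory

set_option maxSynthPendingDepth 3

noncomputable section

namespace Vale.Agent.P216DC

open Vale.Agent.P216R

/-- the time derivative of the scalar curvature -/
def RT : Prop :=
  ∃ c > 0, ∀ (M : Type) [TopologicalSpace M] [ChartedSpace E3 M] [IsManifold 𝓘(ℝ, E3) ∞ M]
    (g : ℝ → Ten E3 M) (I : Set ℝ) (U : Set M) (x : M) (t K₀ K₂ : ℝ), RF g I U → Convex ℝ I →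
    (interior I).Nonempty → t ∈ I → x ∈ U → RmB (g t) 0 x K₀ → RmB (g t) 2 x K₂ →
    |derivWithin (fun s => Sc (g s) x) I t| ≤ c * (K₂ + K₀ ^ 2)

/-- the gradient and the Laplacian of the scalar curvature -/
def GR : Prop :=
  ∃ c > 0, ∀ (M : Type) [TopologicalSpace M] [ChartedSpace E3 M] [IsManifold 𝓘(ℝ, E3) ∞ M]
    (g : Ten E3 M) (U : Set M) (x : M) (K : ℝ), Met g U → x ∈ U →
    (RmB g 1 x K → gam g (Sc g) (Sc g) x ≤ c * K ^ 2) ∧ (RmB g 2 x K → |lap g (Sc g) x| ≤ c * K)

end Vale.Agent.P216DC
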