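import Vale.Agent.P216DC.CvC
import Vale.Agent.P216FI.Vol2
import Vale.Agent.P216B.Top

/-!
# P216DC: volumes of balls under scaling and under smooth convergence
-/

open scoped Manifold ContDiff Topology ENNReal
open Set MeasureTheory Filter

set_option maxSynthPendingDepth 3
set_option linter.unusedSectionVars false

noncomputable section

namespace Vale.Agent.P216DC

open Vale.Agent.P216R Vale.Agent.P216U
open Vale.Agent.P216BF (finrank_E3)

section one

variable {M : Type} [TopologicalSpace M] [ChartedSpace E3 M] {g : Ten E3 M} {U : Set M} {x : M}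
  {r c w w' : ℝ}

theorem lin_bl (h : Cpt g U x r) : ∃ K, IsLindelof K ∧ bl g U x r ⊆ K := by
  refine ⟨⋃ n : ℕ, cbl g U x (r - 1 / (n + 1)), isLindelof_iUnion fun n =>
    (h _ (sub_lt_self _ (by positivity))).isLindelof, fun y hy => ?_⟩
  obtain ⟨s, -, h1, h2⟩ := exists_lt_of_mem_bl hy
  obtain ⟨n, hn⟩ := exists_nat_one_div_lt (sub_pos.2 h1)
  exact mem_iUnion.2 ⟨n, cbl_mono (by linarith) (bl_subset_cbl h2)⟩

theorem cpt_smul (hc : 0 < c) : Cpt (c ^ 2 • g) U x (c * r) ↔ Cpt g U x r := by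
  refine ⟨fun h s hs => ?_, fun h s hs => ?_⟩
  · rw [← cbl_smul hc]; exact h _ (mul_lt_mul_of_pos_left hs hc)
  · rw [← mul_div_cancel₀ s hc.ne', cbl_smul hc]
    exact h _ ((div_lt_iff₀' hc).2 hs)

variable [MeasurableSpace M]

theorem Vl.mono (h : Vl w g U x r) (hw : w' ≤ w) (hr : 0 ≤ r) : Vl w' g U x r :=
  (ENNReal.ofReal_le_ofReal (by gcongr)).trans h

theorem Vl.of_sub {y : M} {s : ℝ} (h : Vl w g U x r) (hs : bl g U x r ⊆ bl g U y s)
    (hw : w' * s ^ 3 ≤ w * r ^ 3) : Vl w' g U y s :=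
  (ENNReal.ofReal_le_ofReal hw).trans (h.trans (measure_mono hs))

variable [BorelSpace M] [IsManifold 𝓘(ℝ, E3) ∞ M]

theorem vl_smul (hg : Met g U) (h : Cpt g U x r) (hc : 0 < c) :
    Vl w (c ^ 2 • g) U x (c * r) ↔ Vl w g U x r := by
  obtain ⟨K, h1, h2⟩ := lin_bl h
  rw [Vl, bl_smul hc, vol_smul h1 (hg.isOpen_bl x r).measurableSet h2 hc, finrank_E3,
    show w * (c * r) ^ 3 = c ^ 3 * (w * r ^ 3) by ring, ENNReal.ofReal_mul (by positivity),
    ENNReal.mul_le_mul_iff_right (by simpa using pow_pos hc 3) ENNReal.ofReal_ne_top, Vl]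

theorem vl_congr {h : Ten E3 M} (hg : Met g U) (hc : Cpt g U x r) (he : EqOn h g U) :
    Vl w h U x r ↔ Vl w g U x r := by
  obtain ⟨K, h1, h2⟩ := lin_bl hc
  have e : bl h U x r = bl g U x r := by rw [bl, ed_congr he, bl]
  rw [Vl, e, vol_congr h1 (hg.isOpen_bl x r).measurableSet h2 (he.mono bl_subset), Vl]

end one

variable {ι : Type} {X : Type} [TopologicalSpace X] [ChartedSpace E3 X]
  [IsManifold 𝓘(ℝ, E3) ∞ X] [MeasurableSpace X] [BorelSpace X]
  {M : ι → Type} [∀ n, TopologicalSpace (M n)] [∀ n, ChartedSpace E3 (M n)]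
  [∀ n, IsManifold 𝓘(ℝ, E3) ∞ (M n)] [∀ n, MeasurableSpace (M n)] [∀ n, BorelSpace (M n)]
  {U : ∀ n, Set (M n)} {g : ∀ n, Ten E3 (M n)} {F : ∀ n, X → M n} {h : Ten E3 X} {W : Set X}
  {p : X} {r R s w : ℝ}

omit [MeasurableSpace X] [BorelSpace X] [∀ n, MeasurableSpace (M n)] [∀ n, BorelSpace (M n)] in
/-- balls of the approximating manifolds are covered by slightly larger balls of the limit -/
theorem conv_bl {l : Filter ι} (hc : Conv l U g F h W) (hU : ∀ᶠ n in l, Hs (U n)) (hp : p ∈ W)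
    (hR : Cpt h W p R) (hs : 1 < s) (hr : s * r < R) :
    ∀ᶠ n in l, bl (g n) (U n) (F n p) r ⊆ F n '' bl h W p (s * r) := by
  filter_upwards [hc.capture hU (hR _ hr) cbl_subset hs] with n hn z hz
  obtain ⟨q, -, h1, h2⟩ := hn p (mem_cbl_self hp) (ENNReal.ofReal r) (fun q hq => le_of_lt
    (hq.trans_eq (ENNReal.ofReal_mul (by linarith)).symm)) z hz
  exact ⟨q, P216BF.lt_of_le_mul (by linarith) h2 hz, h1⟩

omit [MeasurableSpace X] [BorelSpace X] [∀ n, MeasurableSpace (M n)] [∀ n, BorelSpace (M n)] in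
theorem conv_bl' {l : Filter ι} (hc : Conv l U g F h W) (hR : Cpt h W p R) (hs : 1 < s)
    (hr : r < R) : ∀ᶠ n in l, F n '' bl h W p r ⊆ bl (g n) (U n) (F n p) (s * r) := by
  obtain ⟨V, -, h1, h2, h3⟩ := hc.ai (hR _ hr) cbl_subset
  filter_upwards [h3 s hs] with n hn
  rintro _ ⟨q, hq, rfl⟩
  refine P216BF.lt_of_le_mul (by linarith) (hn.ed_le (by linarith) p q) ?_
  rw [ed_eq_of_bl (bl_subset_cbl.trans h1) h2 hq]
  exact hq

theorem conv_vol_le {l : Filter ι} (hc : Conv l U g F h W)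
    (hU : ∀ᶠ n in l, Met (g n) (U n) ∧ Hs (U n)) (hp : p ∈ W) (hR : Cpt h W p R) (hs : 1 < s)
    (hr : s * r < R) : ∀ᶠ n in l, vol (g n) (bl (g n) (U n) (F n p) r) ≤
      ENNReal.ofReal (s ^ 3) * vol h (bl h W p (s * r)) := by
  obtain ⟨V, -, h1, -, h3⟩ := hc.ai (hR _ hr) cbl_subset
  have hm := (hc.met.isOpen_bl p (s * r)).measurableSet
  filter_upwards [h3 s hs, conv_bl hc (hU.mono fun _ h => h.2) hp hR hs hr, hU] with n a b c
  refine (measure_mono b).trans ((vol_image_le _ a.ld (hR _ hr).isLindelof h1 hm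
    bl_subset_cbl).trans ?_)
  have := vol_le_mul (hR _ hr).isLindelof hm bl_subset_cbl (by linarith : 0 < s)
    (fun y hy => (c.1.comap a.ld a.mt).pd (h1 (bl_subset_cbl hy)))
    (fun y hy => hc.met.pd (bl_subset hy)) fun y hy => a.le y (h1 (bl_subset_cbl hy))
  rwa [finrank_E3] at this

theorem conv_vol_ge {l : Filter ι} (hc : Conv l U g F h W) (hU : ∀ᶠ n in l, Met (g n) (U n))
    (hR : Cpt h W p R) (hs : 1 < s) (hr : r < R) : ∀ᶠ n in l, vol h (bl h W p r) ≤
      ENNReal.ofReal (s ^ 3) * vol (g n) (bl (g n) (U n) (F n p) (s * r)) := by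
  obtain ⟨V, -, h1, -, h3⟩ := hc.ai (hR _ hr) cbl_subset
  have hm := (hc.met.isOpen_bl p r).measurableSet
  filter_upwards [h3 s hs, conv_bl' hc hR hs hr, hU] with n a b c
  have := vol_le_mul (hR _ hr).isLindelof hm bl_subset_cbl (by linarith : 0 < s)
    (fun y hy => hc.met.pd (bl_subset hy))
    (fun y hy => (c.comap a.ld a.mt).pd (h1 (bl_subset_cbl hy)))
    fun y hy => a.ge y (h1 (bl_subset_cbl hy))
  rw [finrank_E3, ← vol_image _ a.ld a.inj (hR _ hr).isLindelof h1 hm bl_subset_cbl] at this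
  exact this.trans (mul_le_mul_right (measure_mono b) _)

/-- lower volume bounds pass to the limit -/
theorem conv_vl {l : Filter ι} [l.NeBot] (hc : Conv l U g F h W)
    (hU : ∀ᶠ n in l, Met (g n) (U n) ∧ Hs (U n)) (hp : p ∈ W) (h0 : 0 < r) (hR : Cpt h W p r)
    (hv : ∀ r' ∈ Ioo 0 r, ∀ᶠ n in l, Vl w (g n) (U n) (F n p) r') : Vl w h W p r := by
  have h1 : Tendsto (fun s : ℝ => ENNReal.ofReal (w * r ^ 3 / s ^ 9)) (𝓝[>] 1)
      (𝓝 (ENNReal.ofReal (w * r ^ 3))) := by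
    refine (ENNReal.continuous_ofReal.tendsto _).comp (tendsto_nhdsWithin_of_tendsto_nhds ?_)
    have := (tendsto_const_nhds (x := w * r ^ 3)).div
      ((continuous_pow 9).tendsto (1 : ℝ)) (by simp)
    rwa [one_pow, div_one] at this
  refine le_of_tendsto h1 (eventually_nhdsWithin_of_forall fun s (hs : 1 < s) => ?_)
  have s0 : 0 < s := by linarith
  have h2 : s * (r / s ^ 2) < r := by
    rw [show s * (r / s ^ 2) = r / s by field_simp]; exact div_lt_self h0 hs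
  have h3 : r / s ^ 2 < r := div_lt_self h0 (one_lt_pow₀ hs two_ne_zero)
  obtain ⟨n, a, b⟩ := ((conv_vol_le hc hU hp hR hs h2).and (hv _ ⟨by positivity, h3⟩)).exists
  have h4 := (b.trans a).trans (mul_le_mul_right (measure_mono (bl_mono h2.le)) _)
  rwa [show w * (r / s ^ 2) ^ 3 = s ^ 3 * (w * r ^ 3 / s ^ 9) by field_simp,
    ENNReal.ofReal_mul (by positivity),
    ENNReal.mul_le_mul_iff_right (by simpa using pow_pos s0 3) ENNReal.ofReal_ne_top] at h4

/-- lower volume bounds of the limit hold approximately before the limit -/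
theorem conv_vl' {l : Filter ι} (hc : Conv l U g F h W) (hU : ∀ᶠ n in l, Met (g n) (U n))
    (h0 : 0 < r) (hr : r < R) (hR : Cpt h W p R) (hs : 1 < s) (hv : Vl w h W p r) :
    ∀ᶠ n in l, Vl (w / s ^ 6) (g n) (U n) (F n p) (s * r) := by
  have s0 : 0 < s := by linarith
  filter_upwards [conv_vol_ge hc hU hR hs hr] with n a
  have h4 := hv.trans a
  rwa [show w * r ^ 3 = s ^ 3 * (w / s ^ 6 * (s * r) ^ 3) by field_simp,
    ENNReal.ofReal_mul (by positivity),
    ENNReal.mul_le_mul_iff_right (by simpa using pow_pos s0 3) ENNReal.ofReal_ne_top] at h4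

omit [MeasurableSpace X] [BorelSpace X] [∀ n, MeasurableSpace (M n)] [∀ n, BorelSpace (M n)] in
/-- bounds of the scalar curvature on balls of the limit hold approximately before the limit -/
theorem conv_sc_bl {l : Ultrafilter ι} (hc : Conv l U g F h W)
    (hU : ∀ᶠ n in (l : Filter ι), Met (g n) (U n) ∧ Hs (U n)) (hp : p ∈ W) (hR : Cpt h W p R)
    (h0 : 0 < r) (hr : r < R) {ε : ℝ} (hε : 0 < ε) : ∀ᶠ n in (l : Filter ι),
      ∀ z ∈ bl (g n) (U n) (F n p) r, ∃ q ∈ bl h W p R, F n q = z ∧ |Sc (g n) z - Sc h q| < ε := by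
  obtain ⟨s, h1, h2⟩ : ∃ s > 1, s * r < R :=
    ⟨(1 + R / r) / 2, by have := (one_lt_div h0).2 hr; linarith, by
      rw [show (1 + R / r) / 2 * r = (r + R) / 2 by field_simp]; linarith⟩
  filter_upwards [conv_bl hc (hU.mono fun _ h => h.2) hp hR h1 h2,
    conv_sc_unif hc (hU.mono fun _ h => h.1) (hR _ h2) cbl_subset hε] with n a b z hz
  obtain ⟨q, h3, rfl⟩ := a hz
  exact ⟨q, bl_mono h2.le h3, rfl, b q (bl_subset_cbl h3)⟩

/-- noncollapsing passes to the limit -/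
theorem conv_nc {l : Ultrafilter ι} (hc : Conv l U g F h W)
    (hU : ∀ᶠ n in (l : Filter ι), Met (g n) (U n) ∧ Hs (U n)) (hp : p ∈ W) (h0 : 0 < r)
    (hR : Cpt h W p r) {κ : ℝ}
    (hv : ∀ r' ∈ Ioo 0 r, ∀ᶠ n in (l : Filter ι), NC κ (g n) (U n) (F n p) r') : NC κ h W p r :=
  fun hs => conv_vl hc hU hp h0 hR fun r' hr => by
  have h1 : 1 / r ^ 2 < 1 / r' ^ 2 := by have := hr.1; have := hr.2; gcongr
  filter_upwards [hv r' hr, conv_sc_bl hc hU hp hR hr.1 hr.2 (sub_pos.2 h1)] with n a b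
  refine a fun z hz => ?_
  obtain ⟨q, h2, -, h3⟩ := b z hz
  linarith [(abs_lt.1 h3).2, hs q h2]

end Vale.Agent.P216DC
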