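import Vale.Agent.P216DC.Defs
import Vale.Agent.P216U.Conv

/-!
# P216DC: limits of Ricci flows (statements), and the analytic inputs of the block
-/

open scoped Manifold ContDiff Topology ENNReal
open Set MeasureTheory Filter

set_option maxSynthPendingDepth 3

noncomputable section

namespace Vale.Agent.P216DC

open Vale.Agent.P216R Vale.Agent.P216U

/-- a backward time interval: `Iic 0` or `Ioc (-T) 0` -/
structure Bk (I : Set ℝ) : Prop where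
  zero : (0 : ℝ) ∈ I
  le : ∀ t ∈ I, t ≤ 0
  ext : ∀ t ∈ I, ∃ s < t, Icc s 0 ⊆ I

theorem bk_Iic : Bk (Iic 0) :=
  ⟨self_mem_Iic, fun _ h => h, fun t _ => ⟨t - 1, by linarith, fun _ h => h.2⟩⟩

theorem bk_Ioc {T : ℝ} (hT : 0 < T) : Bk (Ioc (-T) 0) :=
  ⟨⟨by linarith, le_rfl⟩, fun _ h => h.2, fun t h => ⟨(t - T) / 2, by linarith [h.1],
    fun s hs => ⟨by linarith [h.1, hs.1], hs.2⟩⟩⟩

theorem Bk.icc {I : Set ℝ} (h : Bk I) {t : ℝ} (ht : t ∈ I) : Icc t 0 ⊆ I := by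
  obtain ⟨s, h1, h2⟩ := h.ext t ht
  exact (Icc_subset_Icc_left h1.le).trans h2

section defs

variable {ι : Type} {M : ι → Type} [∀ n, TopologicalSpace (M n)] [∀ n, ChartedSpace E3 (M n)]

instance Lim.meas {l : Filter ι} {U : ∀ n, Set (M n)} {g : ∀ n, Ten E3 (M n)} {x : ∀ n, M n}
    {ρ : ℝ≥0∞} (L : Lim l U g x ρ) : MeasurableSpace L.X := borel L.X

instance Lim.bor {l : Filter ι} {U : ∀ n, Set (M n)} {g : ∀ n, Ten E3 (M n)} {x : ∀ n, M n}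
    {ρ : ℝ≥0∞} (L : Lim l U g x ρ) : BorelSpace L.X := ⟨rfl⟩

/-- eventually `P(x n, 0, r, -τ)` is unscathed, complete up to the radius `r`, and has uniformly
bounded curvature -/
def EvP (l : Filter ι) (U : ∀ n, Set (M n)) (g : ∀ n, ℝ → Ten E3 (M n)) (x : ∀ n, M n)
    (r τ : ℝ) : Prop :=
  ∃ C, ∀ᶠ n in l, Cpt (g n 0) (U n) (x n) r ∧ ParB (g n) (U n) (x n) 0 r τ C

/-- the hypotheses of the compactness theorem on the balls of radius less than `ρ` -/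
structure Seq [∀ n, MeasurableSpace (M n)] (l : Filter ι) (U : ∀ n, Set (M n))
    (g : ∀ n, ℝ → Ten E3 (M n)) (x : ∀ n, M n) (ρ : ℝ≥0∞) : Prop where
  met : ∀ n, Met (g n 0) (U n)
  hs : ∀ n, Hs (U n)
  mem : ∀ n, x n ∈ U n
  par : ∀ r > 0, ENNReal.ofReal r < ρ → ∃ τ > 0, EvP l U g x r τ
  vol : ∃ v > 0, ∃ s > 0, ENNReal.ofReal s < ρ ∧ ∀ᶠ n in l, Vl v (g n 0) (U n) (x n) s

/-- `G` is the limit flow on `I × W` -/
structure FL {l : Filter ι} {U : ∀ n, Set (M n)} {g : ∀ n, ℝ → Ten E3 (M n)} {x : ∀ n, M n}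
    {ρ : ℝ≥0∞} (L : Lim l U (fun n => g n 0) x ρ) (G : ℝ → Ten E3 L.X) (I : Set ℝ)
    (W : Set L.X) : Prop where
  zero : EqOn (G 0) L.h W
  rf : RF G I W
  cv : FCv l (fun n t => comap (L.F n) (g n t)) G I W

end defs

/-- compactness: the final time slices converge -/
def LIM0 : Prop :=
  ∀ (ι : Type) (l : Ultrafilter ι) (M : ι → Type) [∀ n, TopologicalSpace (M n)]
    [∀ n, ChartedSpace E3 (M n)] [∀ n, IsManifold 𝓘(ℝ, E3) ∞ (M n)]
    [∀ n, MeasurableSpace (M n)] [∀ n, BorelSpace (M n)] (U : ∀ n, Set (M n))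
    (g : ∀ n, ℝ → Ten E3 (M n)) (x : ∀ n, M n) (ρ : ℝ≥0∞),
    Seq l U g x ρ → Nonempty (Lim l U (fun n => g n 0) x ρ)

/-- compactness: the flows converge on `I × B(o, σ)` -/
def LIM1 : Prop :=
  ∀ (ι : Type) (l : Ultrafilter ι) (M : ι → Type) [∀ n, TopologicalSpace (M n)]
    [∀ n, ChartedSpace E3 (M n)] [∀ n, IsManifold 𝓘(ℝ, E3) ∞ (M n)] (U : ∀ n, Set (M n))
    (g : ∀ n, ℝ → Ten E3 (M n)) (x : ∀ n, M n) (ρ σ : ℝ≥0∞) (I : Set ℝ)
    (L : Lim l U (fun n => g n 0) x ρ), (∀ n, Met (g n 0) (U n)) → (∀ n, Hs (U n)) → Bk I →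
    (∀ r > 0, ENNReal.ofReal r < σ → ∀ τ > 0, -τ ∈ I → EvP l U g x r τ) →
    ∃ G, FL L G I {p | ed L.h univ L.o p < σ}

/-- local derivative estimates -/
def SHI : Prop :=
  ∀ (k : ℕ) (K r T δ : ℝ), 0 < r → 0 < δ → ∃ D,
    ∀ (M : Type) [TopologicalSpace M] [ChartedSpace E3 M] [IsManifold 𝓘(ℝ, E3) ∞ M]
      (g : ℝ → Ten E3 M) (U : Set M) (x : M) (t : ℝ), Met (g t) U → Hs U → Cpt (g t) U x r →
      ParB g U x t r T K → ∀ s ∈ Icc (t - T + δ) t, ∀ y ∈ bl (g t) U x (r / 2), RmB (g s) k y D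

/-- the trace Harnack inequality for bounded ancient solutions -/
def HARN : Prop :=
  ∀ (M : Type) [TopologicalSpace M] [ChartedSpace E3 M] [IsManifold 𝓘(ℝ, E3) ∞ M]
    (g : ℝ → Ten E3 M) (U : Set M), Anc g U → Bdd g U → ∀ x ∈ U,
    MonotoneOn (fun t => Sc (g t) x) (Iic 0) ∧ ∀ y ∈ U, ∀ s t, s < t → t ≤ 0 →
      Sc (g s) x ≤ Real.exp (dd (g s) U x y ^ 2 / (2 * (t - s))) * Sc (g t) y

end Vale.Agent.P216DC
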