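import Vale.Agent.P216DC.Kcn
import Vale.Agent.P216H.Trace
import Vale.Agent.P216K.Avr
import Vale.Agent.P216FR.Far
import Vale.Agent.P216MP.Exp
import Vale.Agent.P216L.Dist
import Vale.Agent.P216CP.Dec

/-!
# P216DC: the theory of kappa solutions without hypotheses
-/

open Set

namespace Vale.Agent.P216DC

theorem avr0 : AVR0 :=
  P216K.avr0_of cpt0 cpt1 P216H.harn P216MP.s2K P216MP.s4K
    (P216FR.far P216H.harn P216KV.rt P216L.dist)

theorem bl_all : BL := bl_avr avr0

theorem th_all : TH := th_avr avr0 P216H.harn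

theorem uni_all : UNI := uni_avr avr0 P216H.harn

theorem rnd_all : RND := rnd_uni uni_all

theorem dec_all : DEC := P216CP.dec bl_all P216L.dist P216BG.bgc

theorem kcn_all : P216FA.KCN := kcn avr0 P216H.harn

theorem fharn : P216FA.FHARN := fun _ _ _ a b _ h H x hx => by
  rcases lt_or_ge b a with k | k
  · exact fun s hs => absurd (hs.1.trans hs.2) k.not_ge
  · have e := (H b ⟨k, le_rfl⟩).1
    exact P216H.mono_fin h e.hs e.con e.cpl (fun t ht => (H t ht).1.sec) (fun t ht => (H t ht).2) hx

end Vale.Agent.P216DC
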