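import Vale.Agent.P216DC.LimV
import Vale.Agent.P216J.Lim
import Vale.Agent.P216U.CGH
import Vale.Agent.P216R.Flow

/-!
# P216DC: the compactness theorem for Ricci flows
-/

open scoped Manifold ContDiff Topology ENNReal
open Set MeasureTheory Filter

set_option maxSynthPendingDepth 3
set_option linter.unusedSectionVars false

noncomputable section

namespace Vale.Agent.P216DC

open Vale.Agent.P216R Vale.Agent.P216U

/-- good charts from curvature bounds and one volume bound -/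
def GOOD : Prop :=
  ∀ (ι : Type) (l : Ultrafilter ι) (M : ι → Type) [∀ n, TopologicalSpace (M n)]
    [∀ n, ChartedSpace E3 (M n)] [∀ n, IsManifold 𝓘(ℝ, E3) ∞ (M n)]
    [∀ n, MeasurableSpace (M n)] [∀ n, BorelSpace (M n)] (U : ∀ n, Set (M n))
    (g : ∀ n, Ten E3 (M n)) (x : ∀ n, M n) (ρ : ℝ≥0∞), (∀ n, Met (g n) (U n)) → (∀ n, Hs (U n)) →
    (∀ n, x n ∈ U n) → (∀ r > 0, ENNReal.ofReal r < ρ → (∀ᶠ n in l, Cpt (g n) (U n) (x n) r) ∧
      ∀ k, ∃ A, ∀ᶠ n in l, ∀ y ∈ bl (g n) (U n) (x n) r, RmB (g n) k y A) →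
    (∃ v > 0, ∃ s > 0, ENNReal.ofReal s < ρ ∧ ∀ᶠ n in l, Vl v (g n) (U n) (x n) s) →
    Good l U g x ρ

theorem parB_sub {M : Type} [TopologicalSpace M] [ChartedSpace E3 M] [IsManifold 𝓘(ℝ, E3) ∞ M]
    {g : ℝ → Ten E3 M} {U : Set M} {x y : M} {t r τ K r' τ' K' : ℝ} (h : ParB g U x t r τ K)
    (hg : Met (g t) U) (hs : bl (g t) U y r' ⊆ bl (g t) U x r) (hτ : τ' ≤ τ) (hK : K ≤ K') :
    ParB g U y t r' τ' K' :=
  have hI : Icc (t - τ') t ⊆ Icc (t - τ) t := Icc_subset_Icc_left (by linarith)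
  ⟨RF.mono h.1 hI (hg.isOpen_bl y r') hs,
    fun s h1 z h2 => P216BF.rmB_mono (h.2 s (hI h1) z (hs h2)) hK⟩

theorem exists_ofReal {a b : ℝ≥0∞} (h : a < b) :
    ∃ r > 0, a < ENNReal.ofReal r ∧ ENNReal.ofReal r < b := by
  obtain ⟨r, -, h1, h2⟩ := ENNReal.lt_iff_exists_real_btwn.1 h
  exact ⟨r, ENNReal.ofReal_pos.1 (zero_le.trans_lt h1), h1, h2⟩

variable {ι : Type} {M : ι → Type} [∀ n, TopologicalSpace (M n)] [∀ n, ChartedSpace E3 (M n)]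
  [∀ n, IsManifold 𝓘(ℝ, E3) ∞ (M n)] {U : ∀ n, Set (M n)} {g : ∀ n, ℝ → Ten E3 (M n)}
  {x : ∀ n, M n} {r τ r' τ' : ℝ}

theorem EvP.mono {l : Filter ι} (h : EvP l U g x r τ) (hg : ∀ n, Met (g n 0) (U n)) (hr : r' ≤ r)
    (hτ : τ' ≤ τ) : EvP l U g x r' τ' :=
  let ⟨C, h⟩ := h
  ⟨C, h.mono fun n hn => ⟨hn.1.mono hr, parB_sub hn.2 (hg n) (bl_mono hr) hτ le_rfl⟩⟩

theorem EvP.shi {l : Filter ι} (h : EvP l U g x r τ) (hS : SHI) (hg : ∀ n, Met (g n 0) (U n))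
    (hU : ∀ n, Hs (U n)) (h0 : 0 ≤ r') (hr : r' < r) (hτ : τ' < τ) (k : ℕ) : ∃ D, ∀ᶠ n in l,
      ∀ s ∈ Icc (-τ') 0, ∀ y ∈ bl (g n 0) (U n) (x n) r', RmB (g n s) k y D := by
  obtain ⟨C, h⟩ := h
  obtain ⟨D, hD⟩ := hS k C (r - r') τ (τ - τ') (by linarith) (by linarith)
  refine ⟨D, h.mono fun n hn s hs y hy => hD _ (g n) (U n) y 0 (hg n) (hU n)
    (hn.1.shift (hg n) h0 hr (bl_subset_cbl hy)) (parB_sub hn.2 (hg n)
      (P216BF.bl_sub_bl' hy (by linarith)) le_rfl le_rfl) s ⟨by linarith [hs.1], hs.2⟩ y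
    (mem_bl_self (bl_subset hy) (by linarith))⟩

theorem lim0 (hS : SHI) (hG : GOOD) : LIM0 := fun ι l M _ _ _ _ _ U g x ρ h => by
  obtain ⟨v, v0, s, s0, h1, h2⟩ := h.vol
  refine cgh l h.met h.hs h.mem (zero_le.trans_lt h1) (hG ι l M U _ x ρ h.met h.hs h.mem
    (fun r r0 hr => ?_) ⟨v, v0, s, s0, h1, h2⟩)
  obtain ⟨r', -, h3, h4⟩ := exists_ofReal hr
  have h5 : r < r' := (ENNReal.ofReal_lt_ofReal_iff'.1 h3).1
  obtain ⟨τ, τ0, h6⟩ := h.par r' (r0.trans h5) h4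
  refine ⟨h6.choose_spec.mono fun n hn => hn.1.mono h5.le, fun k => ?_⟩
  obtain ⟨D, hD⟩ := h6.shi hS h.met h.hs r0.le h5 τ0 k
  exact ⟨D, hD.mono fun n hn => hn 0 (by simp)⟩

theorem Bk.ord {I : Set ℝ} (h : Bk I) : I.OrdConnected :=
  ⟨fun _ ha b hb _ ht => h.icc ha ⟨ht.1, ht.2.trans (h.le b hb)⟩⟩

theorem Bk.int {I : Set ℝ} (h : Bk I) : (interior I).Nonempty := by
  obtain ⟨s, h1, h2⟩ := h.ext 0 h.zero
  refine ⟨s / 2, interior_mono h2 ?_⟩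
  rw [interior_Icc]
  constructor <;> linarith

theorem lim1 (hS : SHI) : LIM1 := fun ι l M _ _ _ U g x ρ σ I L hg hU hI h => by
  have hW := L.conv.met.isOpen_ball L.o σ
  obtain ⟨G, h1, h2, h3⟩ := P216J.exists_lim (U := l)
    (g := fun n t => comap (L.F n) (g n t)) hI.ord hI.int hI.zero
    (L.conv.met.mono hW (subset_univ _)) (L.conv.cv.mono hW (subset_univ _))
    fun a b hab hs h0 y hy => by
    have hb : b ≤ 0 := hI.le b (hs ⟨hab.le, le_rfl⟩)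
    obtain ⟨s, h4, h5⟩ := hI.ext a (hs ⟨le_rfl, hab.le⟩)
    obtain ⟨r, r0, h6, h7⟩ := exists_ofReal (show ed L.h univ L.o y < σ from hy)
    obtain ⟨r', -, h8, h9⟩ := exists_ofReal h7
    have h10 : r < r' := (ENNReal.ofReal_lt_ofReal_iff'.1 h8).1
    have hP := h r' (r0.trans h10) h9 (-s) (by linarith) (h5 ⟨by simp, by linarith⟩)
    obtain ⟨V, hV, -, h11⟩ := emb_of_maps (U' := fun n => bl (g n 0) (U n) (x n) r) L.conv.emb
      (L.conv.met.isOpen_bl L.o r) (subset_univ _) (fun K hK h => lim_maps L hK h) {y}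
      isCompact_singleton (singleton_subset_iff.2 h6)
    have h12 : ∀ᶠ n in (l : Filter ι), RF (g n) (Icc a b) (bl (g n 0) (U n) (x n) r) :=
      hP.choose_spec.mono fun n hn => RF.mono hn.2.1 (Icc_subset_Icc (by linarith) hb)
        ((hg n).isOpen_bl _ _) (bl_mono h10.le)
    refine ⟨V, h11.exists.choose_spec.1.isOpen, hV rfl,
      (h11.and h12).mono fun n hn => hn.2.comap hn.1.1 hn.1.2.2, fun k => ?_⟩
    obtain ⟨D, hD⟩ := hP.shi hS hg hU r0.le h10 (τ' := -a) (by linarith) k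
    refine ⟨D, (h11.and (h12.and hD)).mono fun n hn t ht z hz => ?_⟩
    exact ((li_comap (hn.2.1.met ht) hn.1.1 hz (hn.1.2.2 hz)).RmB k D).2
      (hn.2.2 t ⟨by linarith [ht.1], ht.2.trans hb⟩ _ (hn.1.2.2 hz))
  exact ⟨G, h3, h1, h2⟩

end Vale.Agent.P216DC
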