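import Vale.Agent.P216DC.LimV
import Vale.Agent.P216R.Flow

/-!
# P216DC: elementary properties of ancient solutions, rescaling
-/

open scoped Manifold ContDiff Topology ENNReal
open Set MeasureTheory Filter

set_option maxSynthPendingDepth 3
set_option linter.unusedSectionVars false

noncomputable section

namespace Vale.Agent.P216DC

open Vale.Agent.P216R
open Vale.Agent.P216BF (finrank_E3)

variable {M : Type} [TopologicalSpace M] [ChartedSpace E3 M] [IsManifold 𝓘(ℝ, E3) ∞ M]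

section static

variable {g : Ten E3 M} {U : Set M} {x y : M} {Q r w : ℝ}

theorem smul_sq (hQ : 0 < Q) (g : Ten E3 M) : Q • g = √Q ^ 2 • g := by rw [Real.sq_sqrt hQ.le]

theorem bl_sc (hQ : 0 < Q) : bl (Q • g) U x r = bl g U x (r / √Q) := by
  have h := Real.sqrt_pos.2 hQ
  rw [smul_sq hQ, ← bl_smul (r := r / √Q) h, mul_div_cancel₀ _ h.ne']

theorem cbl_sc (hQ : 0 < Q) : cbl (Q • g) U x r = cbl g U x (r / √Q) := by
  have h := Real.sqrt_pos.2 hQ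
  rw [smul_sq hQ, ← cbl_smul (r := r / √Q) h, mul_div_cancel₀ _ h.ne']

theorem dd_sc (hQ : 0 < Q) : dd (Q • g) U x y = √Q * dd g U x y := by
  rw [smul_sq hQ, dd_smul (Real.sqrt_pos.2 hQ)]

theorem cpt_sc (hQ : 0 < Q) : Cpt (Q • g) U x r ↔ Cpt g U x (r / √Q) := by
  have h := Real.sqrt_pos.2 hQ
  rw [smul_sq hQ, ← cpt_smul (r := r / √Q) h, mul_div_cancel₀ _ h.ne']

theorem cpl_sc (hQ : 0 < Q) (h : Cpl g U) : Cpl (Q • g) U := fun x hx r => by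
  rw [cbl_sc hQ]; exact h x hx _

theorem sc_sc (hQ : 0 < Q) : Sc (Q • g) x = Sc g x / Q := by
  rw [Sc_smul _ _ hQ.ne', inv_mul_eq_div]

theorem rmB_sc (hg : Met g U) (hx : x ∈ U) (hQ : 0 < Q) (k : ℕ) (C : ℝ) :
    RmB (Q • g) k x C ↔ RmB g k x (√Q ^ (k + 2) * C) := by
  rw [smul_sq hQ, hg.RmB_smul hx (Real.sqrt_pos.2 hQ)]

variable [MeasurableSpace M] [BorelSpace M]

theorem vl_sc (hg : Met g U) (hQ : 0 < Q) (h : Cpt g U x (r / √Q)) :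
    Vl w (Q • g) U x r ↔ Vl w g U x (r / √Q) := by
  have h1 := Real.sqrt_pos.2 hQ
  rw [smul_sq hQ, ← vl_smul hg h h1, mul_div_cancel₀ _ h1.ne']

theorem nc_sc (hg : Met g U) (hQ : 0 < Q) (h : Cpt g U x (r / √Q)) :
    NC w (Q • g) U x r ↔ NC w g U x (r / √Q) := by
  rw [NC, NC, vl_sc hg hQ h, bl_sc hQ, div_pow, Real.sq_sqrt hQ.le, one_div_div]
  simp only [sc_sc hQ, div_le_iff₀ hQ, one_div_mul_eq_div]

end static

variable {g : ℝ → Ten E3 M} {U : Set M} {x y : M} {Q r s t t₀ τ κ : ℝ}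

theorem resc_zero (g : ℝ → Ten E3 M) (Q t₀ : ℝ) : resc g Q t₀ 0 = Q • g t₀ := by simp [resc]

theorem resc_time (hQ : 0 < Q) (h0 : t₀ ≤ 0) (ht : t ≤ 0) : t₀ + t / Q ≤ 0 :=
  add_nonpos h0 (div_nonpos_of_nonpos_of_nonneg ht hQ.le)

namespace Anc

theorem met (h : Anc g U) (ht : t ≤ 0) : Met (g t) U := h.rf.met ht

theorem resc (h : Anc g U) (hQ : 0 < Q) (h0 : t₀ ≤ 0) : Anc (resc g Q t₀) U :=
  ⟨h.rf.resc hQ t₀ fun _ ht => resc_time hQ h0 ht, h.hs, h.conn,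
    fun _ ht => cpl_sc hQ (h.cpl _ (resc_time hQ h0 ht)), fun _ ht x hx =>
    (SecGe_smul _ _ hQ 0).2 (by simpa using h.sec _ (resc_time hQ h0 ht) x hx)⟩

theorem cpt (h : Anc g U) (ht : t ≤ 0) (hx : x ∈ U) (r : ℝ) : Cpt (g t) U x r :=
  (h.cpl t ht).cpt hx r

theorem secGe (h : Anc g U) (ht : t ≤ 0) (hx : x ∈ U) {k : ℝ} (hk : 0 ≤ k) :
    SecGe (g t) x (-k) := P216BF.secGe_mono (h.met ht) hx (h.sec t ht x hx) (by linarith)

theorem ricGe (h : Anc g U) (ht : t ≤ 0) (hx : x ∈ U) : P216BF.RicGe (g t) x 0 := by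
  simpa using P216BF.ricGe3 finrank_E3 (h.met ht) hx (h.sec t ht x hx)

theorem ricLe (h : Anc g U) (ht : t ≤ 0) (hx : x ∈ U) :
    P216BF.RicLe (g t) x (Sc (g t) x / 2) := by
  simpa using P216BF.ricLe_sc3 finrank_E3 (h.met ht) hx (h.secGe ht hx le_rfl)

theorem sc_nonneg (h : Anc g U) (ht : t ≤ 0) (hx : x ∈ U) : 0 ≤ Sc (g t) x := by
  simpa using P216BF.sc_ge3 finrank_E3 (h.met ht) hx (h.sec t ht x hx)

theorem rmB (h : Anc g U) (ht : t ≤ 0) (hx : x ∈ U) {C : ℝ} (hC : Sc (g t) x ≤ C) :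
    RmB (g t) 0 x C :=
  P216BF.rmB_mono (P216BF.rmB3_nonneg finrank_E3 (h.met ht) hx (h.sec t ht x hx)) hC

theorem ed_ne (h : Anc g U) (ht : t ≤ 0) (hx : x ∈ U) (hy : y ∈ U) : ed (g t) U x y ≠ ⊤ :=
  (h.met ht).ed_ne_top h.conn Subset.rfl hx hy

theorem mem_bl (h : Anc g U) (ht : t ≤ 0) (hx : x ∈ U) (hy : y ∈ U) (hr : dd (g t) U x y < r) :
    y ∈ bl (g t) U x r := mem_bl_iff.2 ⟨h.ed_ne ht hx hy, hr⟩

theorem ed_anti (h : Anc g U) (hs : s ≤ t) (ht : t ≤ 0) (x y : M) :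
    ed (g t) U x y ≤ ed (g s) U x y :=
  P216BF.rf_ed_anti h.rf hs (fun _ h1 => h1.2.trans ht)
    (fun _ h1 _ hw => h.ricGe (h1.2.le.trans ht) hw) x y

theorem par (h : Anc g U) (ht : t ≤ 0) (x : M) (r τ : ℝ) : Par g U x t r τ :=
  h.rf.mono (fun _ h1 => h1.2.trans ht) ((h.met ht).isOpen_bl x r) bl_subset

theorem parB (h : Anc g U) (ht : t ≤ 0) {C : ℝ}
    (hC : ∀ s ≤ t, ∀ y ∈ bl (g t) U x r, Sc (g s) y ≤ C) (τ : ℝ) : ParB g U x t r τ C :=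
  ⟨h.par ht x r τ, fun s hs y hy => h.rmB (hs.2.trans ht) (bl_subset hy) (hC s hs.2 y hy)⟩

theorem loc (h : Anc g U) (hx : x ∈ U) (r τ : ℝ) : Loc g U x r τ :=
  ⟨h.met le_rfl, h.hs, hx, h.cpt le_rfl hx r, h.par le_rfl x r τ,
    fun _ ht _ hy => h.secGe ht.2 (bl_subset hy) (by positivity)⟩

/-- distances at an earlier time from a curvature bound on a ball -/
theorem ed_back (h : Anc g U) (hs : s ≤ t) (ht : t ≤ 0) {C : ℝ}
    (hC : ∀ u ∈ Ioo s t, ∀ y ∈ bl (g t) U x r, Sc (g u) y ≤ C) (hy : y ∈ bl (g t) U x r) :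
    ed (g s) U x y ≤ ENNReal.ofReal (Real.exp (C / 2 * (t - s))) * ed (g t) U x y :=
  P216BF.ed_fwd' (Real.exp_pos _) bl_subset (fun z hz v => by
    have := P216BF.rf_le_of_ricLe h.rf (bl_subset hz) hs (fun _ h1 => h1.2.trans ht) (K := C / 2)
      (fun u hu => (h.ricLe (hu.2.le.trans ht) (bl_subset hz)).mono
        ((h.met (hu.2.le.trans ht)).nonneg (bl_subset hz)) (by linarith [hC u hu z hz])) v
    rwa [sq, ← Real.exp_add, show C / 2 * (t - s) + C / 2 * (t - s) = 2 * (C / 2) * (t - s) by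
      ring]) hy

end Anc

theorem Bdd.resc (h : Bdd g U) (hQ : 0 < Q) (h0 : t₀ ≤ 0) : Bdd (resc g Q t₀) U :=
  let ⟨C, h⟩ := h
  ⟨C / Q, fun _ ht x hx => (sc_sc hQ).trans_le
    (div_le_div_of_nonneg_right (h _ (resc_time hQ h0 ht) x hx) hQ.le)⟩

variable [MeasurableSpace M] [BorelSpace M]

theorem KS.resc (h : KS κ g U) (hQ : 0 < Q) (h0 : t₀ ≤ 0) : KS κ (resc g Q t₀) U :=
  ⟨h.toAnc.resc hQ h0, h.bdd.resc hQ h0, fun _ ht x hx =>
    (div_pos (h.pos _ (resc_time hQ h0 ht) x hx) hQ).trans_eq (sc_sc hQ).symm, fun _ ht x hx _ hr =>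
    have h1 := resc_time hQ h0 ht
    (nc_sc (h.toAnc.met h1) hQ (h.toAnc.cpt h1 hx _)).2
      (h.nc _ h1 x hx _ (div_pos hr (Real.sqrt_pos.2 hQ)))⟩

end Vale.Agent.P216DC
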