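import Vale.Agent.P216DC.Uni
import Vale.Agent.P216G.Good
import Vale.Agent.P216D.ShiL
import Vale.Agent.P216BG.Bgc
import Vale.Agent.P216KV.RT

/-!
# P216DC: the compactness theorems without hypotheses
-/

open scoped Manifold ContDiff Topology ENNReal
open Set MeasureTheory Filter

set_option maxSynthPendingDepth 3

noncomputable section

namespace Vale.Agent.P216DC

open Vale.Agent.P216R Vale.Agent.P216U

theorem good : GOOD := by
  intro ι l M _ _ _ _ _ U g x ρ hg hs hx hc ⟨v, hv, s, h0, h1, h2⟩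
  refine P216G.good (Eventually.of_forall fun n => ⟨hg n, hs n, hx n⟩)
    (fun r a b => (hc r a b).1) (fun r a b => (hc r a b).2) h0 h1
    (v := ENNReal.ofReal (v * s ^ 3)) ?_ h2
  exact (ENNReal.ofReal_pos.2 (by positivity)).ne'

theorem cpt0 : LIM0 := lim0 P216D.shi good

theorem cpt1 : LIM1 := lim1 P216D.shi

theorem bl_avr (h : AVR0) : BL := bl_of cpt0 cpt1 P216BG.bgc h

theorem th_avr (h : AVR0) (h' : HARN) : TH := th_of (bl_avr h) P216BG.bgc h'

theorem uni_avr (h : AVR0) (h' : HARN) : UNI := uni_of (th_avr h h') h' P216D.shi P216KV.rt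

end Vale.Agent.P216DC
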