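import Vale.Agent.P216DC.Line
import Vale.Agent.P216DC.Cpt
import Vale.Agent.P216FA.Plan
import Vale.Agent.P216CY.RndAll
import Vale.Agent.P216CY.Cyl
import Vale.Agent.P216LC.Nmp
import Vale.Agent.P216U.Stab
import Vale.Agent.P216FL.OriC
import Vale.Agent.P216FL.Ori2

/-!
# P216DC: limits of kappa solutions and canonical neighbourhoods in kappa solutions
-/

open scoped Manifold ContDiff Topology ENNReal
open Set MeasureTheory Filter

set_option maxSynthPendingDepth 3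
set_option linter.unusedSectionVars false

noncomputable section

namespace Vale.Agent.P216DC

open Vale.Agent.P216R Vale.Agent.P216U Vale.Agent.P216FA
open Vale.Agent.P216CY (UD Spc tr)
open Vale.Agent.P216SG (Cen)

theorem rnd_uni (h : UNI) : RND := P216CY.rnd_of_uni h

theorem ud_lim {ι : Type} {l : Ultrafilter ι} {M : ι → Type} [∀ n, TopologicalSpace (M n)]
    [∀ n, ChartedSpace E3 (M n)] [∀ n, IsManifold 𝓘(ℝ, E3) ∞ (M n)] {U : ∀ n, Set (M n)}
    {g : ∀ n, Ten E3 (M n)} {x : ∀ n, M n} (L : Lim l U g x ⊤) {C : ℝ → ℝ}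
    (hg : ∀ n, Met (g n) (U n) ∧ Hs (U n) ∧ x n ∈ U n ∧ Sc (g n) (x n) = 1)
    (h : ∀ n, UD (g n) (U n) C) : UD L.h univ C := fun p _ => by
  have s := fun q => conv_sc_pt L.conv (.of_forall fun n => (hg n).1) (mem_univ q)
  have p0 : 0 < Sc L.h p := by
    obtain ⟨r, r0, -, hp⟩ := lim_mem L p
    obtain ⟨n⟩ := (l : Filter ι).nonempty_of_neBot
    refine (one_div_pos.2 (one_pos.trans_le ((h n).one_le (hg n).2.2.1 r0))).trans_le
      (ge_of_tendsto (s p) ((L.conv.ap_lt L.ap (ap_const p) hp).mono fun n hn => ?_))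
    have := ((h n _ (hg n).2.2.1).2 r (L.F n p) (by rwa [(hg n).2.2.2, Real.sqrt_one, div_one])).1
    rwa [(hg n).2.2.2] at this
  refine ⟨p0, fun A y hy => ?_⟩
  obtain ⟨r, -, h1, h2⟩ := exists_lt_of_mem_bl hy
  have k : ∀ᶠ n in (l : Filter ι), Sc (g n) (L.F n p) / C A ≤ Sc (g n) (L.F n y) ∧
      Sc (g n) (L.F n y) ≤ C A * Sc (g n) (L.F n p) := by
    filter_upwards [L.conv.ap_lt (ap_const p) (ap_const y) h2, L.conv.ap_mem trivial (ap_const p),
      (tendsto_const_nhds.div (s p).sqrt (Real.sqrt_pos.2 p0).ne').eventually (lt_mem_nhds h1)]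
      with n a b c using (h n _ b).2 A _ (bl_mono c.le a)
  exact ⟨le_of_tendsto_of_tendsto ((s p).div_const _) (s y) (k.mono fun n hn => hn.1),
    le_of_tendsto_of_tendsto (s y) ((s p).const_mul _) (k.mono fun n hn => hn.2)⟩

/-- limits of kappa solutions; the limit is a kappa solution if its curvature is bounded -/
theorem ks_lim (hU : UNI) (hH : HARN) {κ : ℝ} (κ0 : 0 < κ) {ι : Type} (l : Ultrafilter ι)
    {M : ι → Type} [∀ n, TopologicalSpace (M n)] [∀ n, ChartedSpace E3 (M n)]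
    [∀ n, IsManifold 𝓘(ℝ, E3) ∞ (M n)] [∀ n, MeasurableSpace (M n)] [∀ n, BorelSpace (M n)]
    {U : ∀ n, Set (M n)} {g : ∀ n, ℝ → Ten E3 (M n)} {x : ∀ n, M n} (h : ∀ n, KS κ (g n) (U n))
    (hx : ∀ n, x n ∈ U n) (h1 : ∀ n, Sc (g n 0) (x n) = 1) :
    ∃ (L : Lim l U (fun n => g n 0) x ⊤) (G : ℝ → Ten E3 L.X), FL L G (Iic 0) univ ∧ G 0 = L.h ∧
      Anc G univ ∧ Sc L.h L.o = 1 ∧ (∃ C, UD L.h univ C) ∧
      ((∃ K, ∀ p, Sc L.h p ≤ K) → KS κ G univ) := by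
  obtain ⟨C', D', hD⟩ := P216CY.uni_sc hU κ0
  obtain ⟨v, C, D, v0, hU⟩ := hU κ κ0
  have k := fun n => hU _ _ _ _ (h n) (hx n) (h1 n)
  have hP : ∀ r > 0, ∀ τ > 0, EvP l U g x r τ := fun r _ τ _ => ⟨C r, .of_forall fun n =>
    ⟨(h n).cpt le_rfl (hx n) r, (h n).parB le_rfl (fun s hs y hy => ((k n).2 r y hy).2 s hs |>.1) τ⟩⟩
  obtain ⟨L, G, hG, e⟩ := exists_fl cpt0 cpt1 (ρ := ⊤) ⟨fun n => (h n).met le_rfl,
    fun n => (h n).hs, hx, fun r r0 _ => ⟨1, one_pos, hP r r0 1 one_pos⟩,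
    v, v0, 1, one_pos, ENNReal.ofReal_lt_top, .of_forall fun n => (k n).1⟩ bk_Iic
    fun r r0 _ τ τ0 _ => hP r r0 τ τ0
  have h2 := hG.anc hP fun r _ t ht ε ε0 => .of_forall fun n y hy =>
    (h n).secGe ht (bl_subset hy) ε0.le
  have h3 : Sc L.h L.o = 1 := by
    have h4 := hG.sc_base bk_Iic self_mem_Iic (subset_univ _) one_pos (hP 1 one_pos 1 one_pos)
      (by norm_num)
    simp only [h1, e] at h4
    exact tendsto_nhds_unique h4 tendsto_const_nhds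
  refine ⟨L, G, hG, e, h2, h3, ⟨C', ud_lim L (fun n => ⟨(h n).met le_rfl, (h n).hs, hx n, h1 n⟩)
    fun n => (hD _ _ _ (h n) 0 le_rfl).1⟩, fun ⟨K, hK⟩ => ?_⟩
  have c := fun t (ht : t ≤ 0) => hG.conv_all (t := t) bk_Iic ht
  have s := fun t (ht : t ≤ 0) p => conv_sc_pt (c t ht) (.of_forall fun n => (h n).met ht) (mem_univ p)
  have m := fun p => L.conv.ap_mem (mem_univ p) (ap_const p)
  have hb : Bdd G univ := ⟨K, fun t ht p _ => (le_of_tendsto_of_tendsto (s t ht p) (s 0 le_rfl p)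
    ((m p).mono fun n hn => (hH _ _ _ (h n).toAnc (h n).bdd _ hn).1 ht self_mem_Iic ht)).trans
      (e ▸ hK p)⟩
  exact ⟨h2, hb, P216LC.anc_pos hH h2 hb (mem_univ L.o) (by rw [e, h3]; exact one_pos),
    fun t ht p _ r r0 => conv_nc (c t ht) (.of_forall fun n => ⟨(h n).met ht, (h n).hs⟩) trivial r0
      (h2.cpt ht trivial r) fun r' hr => (m p).mono fun n hn => (h n).nc t ht _ hn r' hr.1⟩

/-- a split metric with controlled scalar curvature has bounded curvature -/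
theorem ud_bdd {M : Type} [TopologicalSpace M] [ChartedSpace E3 M] [IsManifold 𝓘(ℝ, E3) ∞ M]
    {g : Ten E3 M} {U : Set M} {b : M → ℝ} {C : ℝ → ℝ} {x y : M} (h : Spc g U b)
    (hU : IsPreconnected U) (hC : UD g U C) (hx : x ∈ U) (hy : y ∈ U) :
    Sc g x ≤ C (65 * C 1) ^ 2 * Sc g y := by
  rw [(h.li h.met h.spl (fun _ _ _ => rfl) hx (b y - b x)).Sc]
  exact (P216CY.level h.met h.hs h.cpl h.spl hU hC (h.mem hx _) hy (by rw [h.val hx]; ring)).1

/-- almost lines in kappa solutions give necks -/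
theorem ks_neck (hU : UNI) (hH : HARN) {κ ε : ℝ} (κ0 : 0 < κ) (ε0 : 0 < ε) (e : ℝ) : ∃ A,
    ∀ (X : Mf) (g : ℝ → Ten E3 X.M) (U : Set X.M) (x : X.M), KS κ g U → P216C.Ori U → x ∈ U →
      Sc (g 0) x = 1 → AL (g 0) U x A e → Cen (g 0) U x 1 ε := by
  by_contra H
  push Not at H
  choose X g U x h ho hx h1 hA hn using fun n : ℕ => H (n + 1)
  obtain ⟨L, G, hG, e1, h2, h3, ⟨C, h4⟩, h5⟩ := ks_lim hU hH κ0 (hyperfilter ℕ) h hx h1
  obtain ⟨c, -, hc⟩ := lim_line L (fun n => ((h n).met le_rfl).ms (h n).hs (h n).conn)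
    (fun n => (h n).cpl 0 le_rfl) (fun n => (h n).sec 0 le_rfl) hx (tendsto_atTop.2 ev_le)
    (fun n => by positivity) (abs_nonneg e) fun n => al_mono (hA n) le_rfl (le_abs_self e)
  obtain ⟨b, hb, -⟩ := spl_of_line L.conv.met h2.hs h2.conn L.cpl (e1 ▸ h2.sec 0 le_rfl) hc
  have h6 := rnd_uni hU _ κ G univ b κ0 (h5 ⟨_, fun p => ud_bdd ⟨L.conv.met, h2.hs, L.cpl, hb⟩
    h2.conn h4 (mem_univ p) (mem_univ L.o)⟩) (e1 ▸ hb) 0 le_rfl
  rw [e1] at h6
  have h7 := P216CY.cen_of L.conv.met h2.hs L.cpl h2.conn (P216FL.ori_of_emb L.conv.emb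
    (.of_forall fun n => (ho n).fl ((h n).met le_rfl).isOpen)) hb one_pos
    (fun p _ => (h6 p trivial L.o trivial).trans h3) (mem_univ L.o) (half_pos ε0)
  rw [Real.sqrt_one, inv_one] at h7
  obtain ⟨n, h8, h9⟩ := ((conv_cen L.conv h7 (half_lt_self ε0)).and L.base).exists
  exact hn n (h9 ▸ h8)

theorem kcn_of (hU : UNI) (hT : TH) (hH : HARN) : KCN := fun κ κ0 ε ε0 w w0 => by
  obtain ⟨A₁, h1⟩ := ks_neck hU hH κ0 (half_pos ε0) 2
  obtain ⟨K, K0, hT⟩ := hT (w / 16) (by positivity)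
  obtain ⟨v, C, D, -, hU⟩ := hU κ κ0
  refine ⟨max A₁ (max 1 √K), fun A hA => ⟨|C (A + 1)| + |D 1 1| + |D 2 1| + 1, by positivity,
    fun X g U x h ho hx e => ?_⟩⟩
  have k := (hU _ _ _ _ h hx e).2
  have k1 := (k 1 x (mem_bl_self hx one_pos)).2 0 le_rfl
  have a := abs_nonneg (C (A + 1))
  have b := abs_nonneg (D 1 1)
  have c := abs_nonneg (D 2 1)
  have A1 : max 1 √K ≤ A := (le_max_right _ _).trans hA
  refine ⟨⟨h.rmB le_rfl hx (by rw [e]; linarith), P216BF.rmB_mono (k1.2 1) ?_,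
    P216BF.rmB_mono (k1.2 2) ?_, fun y hy => ?_⟩, fun hl => h1 X g U x h ho hx e
      (al_mono hl ((le_max_left _ _).trans hA) le_rfl), max 1 √K, ⟨le_max_left _ _, A1⟩, ?_⟩
  · rw [e, Real.sqrt_one]; linarith [le_abs_self (D 1 1)]
  · rw [e]; linarith [le_abs_self (D 2 1)]
  · rw [sg_one e, mul_one] at hy
    have c1 := e ▸ ((k (A + 1) x (mem_bl_self hx (pos_of_mem_bl hy))).2 0 le_rfl).1
    have c2 := (div_le_iff₀' (one_pos.trans_le c1)).1 (k _ y hy).1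
    have c3 := h.pos 0 le_rfl y (bl_subset hy)
    rw [e]
    exact ⟨by nlinarith [le_abs_self (C (A + 1))],
      by linarith [le_abs_self (C (A + 1)), ((k _ y hy).2 0 le_rfl).1]⟩
  · by_contra H
    have r0 : 0 < max 1 √K := one_pos.trans_le (le_max_left _ _)
    have := hT _ g U x (2 * max 1 √K) h.toAnc h.bdd hx (by positivity)
      (le_trans (le_of_eq (by congr 1; ring)) (not_le.1 H).le)
    rw [e, le_div_iff₀ (by positivity)] at this
    nlinarith [Real.sq_sqrt K0.le, pow_le_pow_left₀ (Real.sqrt_nonneg K) (le_max_right 1 √K) 2]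

theorem kcn (hA : AVR0) (hH : HARN) : KCN := kcn_of (uni_avr hA hH) (th_avr hA hH) hH

end Vale.Agent.P216DC
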