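import Vale.Agent.P216DC.Lim
import Vale.Agent.P216DC.Stm2
import Vale.Agent.P216CP.Stm
import Mathlib.Analysis.SpecialFunctions.Trigonometric.DerivHyp

/-!
# P216DC: properties of limit flows, ancient limits, the blow up lemma
-/

open scoped Manifold ContDiff Topology ENNReal
open Set MeasureTheory Filter

set_option maxSynthPendingDepth 3
set_option linter.unusedSectionVars false

noncomputable section

namespace Vale.Agent.P216DC

open Vale.Agent.P216R Vale.Agent.P216U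
open Vale.Agent.P216BF (finrank_E3)

theorem bgc (h : P216CP.BG E3) : BGC := by
  have h1 : 0 < Real.sinh 1 := Real.sinh_pos_iff.2 one_pos
  refine ⟨1 / Real.sinh 1 ^ 2, by positivity, fun M _ _ _ _ _ g U x w r s hg hU hc hs w0 s0 hr hv =>
    le_trans ?_ ((mul_le_mul_right hv _).trans ((h M g U x r (1 / r) hg hU hc (by linarith)
      (by have := s0.trans_le hr; positivity) (by simp) fun y hy v => ?_).2.1 s s0 hr))⟩
  · have r0 := s0.trans_le hr
    have h2 : s / r / Real.sinh 1 ≤ P216CP.sn (1 / r) s / P216CP.sn (1 / r) r := by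
      have h3 := (Real.self_le_sinh_iff (x := s / r)).2 (by positivity)
      simp only [P216CP.sn, if_neg (one_div_ne_zero r0.ne')]
      rw [one_div_mul_cancel r0.ne', div_div_div_cancel_right₀ (one_div_ne_zero r0.ne'),
        show 1 / r * s = s / r by ring]
      gcongr
    rw [← ENNReal.ofReal_mul (mul_nonneg (by positivity)
      (pow_nonneg (le_trans (by positivity) h2) _)), finrank_E3]
    refine ENNReal.ofReal_le_ofReal (le_trans (le_of_eq ?_)
      (?_ : s / r * (s / r / Real.sinh 1) ^ (3 - 1) * (w * r ^ 3) ≤ _))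
    · rw [show 3 - 1 = 2 from rfl]
      field_simp
    · gcongr
  · have := P216BF.ricGe3 finrank_E3 hg (bl_subset hy) (hs y hy) v
    rw [finrank_E3]
    refine le_trans (le_of_eq ?_) this
    push_cast
    ring

theorem secGe_of_forall {M : Type} [TopologicalSpace M] [ChartedSpace E3 M] {g : Ten E3 M} {x : M}
    (h : ∀ ε > 0, SecGe g x (-ε)) : SecGe g x 0 := fun v w => by
  have h1 : Tendsto (fun ε : ℝ => -ε * (g x v v * g x w w - g x v w ^ 2)) (𝓝[>] 0)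
      (𝓝 (-0 * (g x v v * g x w w - g x v w ^ 2))) :=
    (continuous_neg.mul continuous_const).continuousWithinAt
  rw [neg_zero] at h1
  exact le_of_tendsto h1 (eventually_nhdsWithin_of_forall fun ε hε => h ε hε v w)

variable {ι : Type} {M : ι → Type} [∀ n, TopologicalSpace (M n)] [∀ n, ChartedSpace E3 (M n)]
  [∀ n, IsManifold 𝓘(ℝ, E3) ∞ (M n)] {U U' : ∀ n, Set (M n)} {g : ∀ n, ℝ → Ten E3 (M n)}
  {x : ∀ n, M n} {r τ t : ℝ} {ρ : ℝ≥0∞} {I : Set ℝ}

theorem EvP.met {l : Filter ι} (h : EvP l U g x r τ) (ht : t ∈ Icc (-τ) 0) :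
    ∀ᶠ n in l, Met (g n t) (bl (g n 0) (U n) (x n) r) :=
  h.choose_spec.mono fun _ hn => RF.met hn.2.1 (by simpa using ht)

section fl

variable {l : Filter ι} {L : Lim l U (fun n => g n 0) x ρ} {G : ℝ → Ten E3 L.X} {W W' : Set L.X}

/-- the time slices converge, also at moving times -/
theorem FL.conv' (h : FL L G I W) (hI : Bk I) (ht : t ∈ I) {s : ι → ℝ}
    (hs : Tendsto s l (𝓝[I] t)) (hW : IsOpen W') (hWW : W' ⊆ W)
    (hm : ∀ K, IsCompact K → K ⊆ W' → ∀ᶠ n in l, MapsTo (L.F n) K (U' n)) :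
    Conv l U' (fun n => g n (s n)) L.F (G t) W' :=
  ⟨(h.rf.met ht).mono hW hWW, emb_of_maps L.conv.emb hW (subset_univ _) hm,
    (fcv_slice h.cv hI.nice h.rf.isOpen ht hs).mono hW hWW⟩

theorem FL.conv (h : FL L G I W) (hI : Bk I) (ht : t ∈ I) (hW : IsOpen W') (hWW : W' ⊆ W)
    (hm : ∀ K, IsCompact K → K ⊆ W' → ∀ᶠ n in l, MapsTo (L.F n) K (U' n)) :
    Conv l U' (fun n => g n t) L.F (G t) W' :=
  h.conv' hI ht (tendsto_const_pure.mono_right (pure_le_nhdsWithin ht)) hW hWW hm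

theorem FL.conv_bl (h : FL L G I W) (hI : Bk I) (ht : t ∈ I) (hW : bl L.h univ L.o r ⊆ W) :
    Conv l (fun n => bl (g n 0) (U n) (x n) r) (fun n => g n t) L.F (G t) (bl L.h univ L.o r) :=
  h.conv hI ht (L.conv.met.isOpen_bl _ _) hW fun _ hK hs => lim_maps L hK hs

theorem FL.conv_all (h : FL L G I W) (hI : Bk I) (ht : t ∈ I) :
    Conv l U (fun n => g n t) L.F (G t) W :=
  h.conv hI ht h.rf.isOpen Subset.rfl fun K hK _ =>
    let ⟨_, h1, _, h2⟩ := L.conv.emb K hK (subset_univ K)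
    h2.mono fun _ hn => hn.2.2.mono_left h1

end fl

theorem lim_cpt {l : Filter ι} {g : ∀ n, Ten E3 (M n)} (L : Lim l U g x ρ)
    (hr : ENNReal.ofReal r ≤ ρ) : Cpt L.h univ L.o r := fun s hs => by
  rcases le_or_gt r 0 with h | h
  · have e : cbl L.h univ L.o s = {p | ed L.h univ L.o p ≤ 0} := by
      rw [cbl, ENNReal.ofReal_of_nonpos (hs.le.trans h)]
    exact e ▸ L.cpt 0 (zero_le.trans_lt (L.lt L.o))
  · exact L.cpt _ (((ENNReal.ofReal_lt_ofReal_iff h).2 hs).trans_le hr)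

theorem lim_cpl {l : Filter ι} {g : ∀ n, Ten E3 (M n)} (L : Lim l U g x ⊤) : Cpl L.h univ :=
  L.conv.met.cpl_of isPreconnected_univ (mem_univ L.o) fun _ => L.cpt _ ENNReal.ofReal_lt_top

theorem lim_mem {l : Filter ι} {g : ∀ n, Ten E3 (M n)} (L : Lim l U g x ρ) (p : L.X) :
    ∃ r > 0, ENNReal.ofReal r < ρ ∧ p ∈ bl L.h univ L.o r :=
  let ⟨r, h1, h2, h3⟩ := exists_ofReal (L.lt p)
  ⟨r, h1, h3, h2⟩

variable {l : Ultrafilter ι}

/-- the limit flow on the whole limit manifold -/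
theorem exists_fl [∀ n, MeasurableSpace (M n)] [∀ n, BorelSpace (M n)] (h0 : LIM0) (h1 : LIM1)
    (hs : Seq l U g x ρ) (hI : Bk I)
    (h : ∀ r > 0, ENNReal.ofReal r < ρ → ∀ τ > 0, -τ ∈ I → EvP l U g x r τ) :
    ∃ (L : Lim l U (fun n => g n 0) x ρ) (G : ℝ → Ten E3 L.X), FL L G I univ ∧ G 0 = L.h := by
  obtain ⟨L⟩ := h0 ι l M U g x ρ hs
  obtain ⟨G, hG⟩ := h1 ι l M U g x ρ ρ I L hs.met hs.hs hI h
  rw [eq_univ_of_forall (s := {p | ed L.h univ L.o p < ρ}) L.lt] at hG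
  exact ⟨L, G, hG, funext fun p => hG.zero (mem_univ p)⟩

section lim

variable {L : Lim l U (fun n => g n 0) x ρ} {G : ℝ → Ten E3 L.X} {W : Set L.X} {p : L.X}

theorem FL.sc (h : FL L G I W) (hI : Bk I) (ht : t ∈ I) (hW : bl L.h univ L.o r ⊆ W)
    (hp : p ∈ bl L.h univ L.o r) (hP : EvP l U g x r τ) (hτ : -τ ≤ t) :
    Tendsto (fun n => Sc (g n t) (L.F n p)) l (𝓝 (Sc (G t) p)) :=
  conv_sc_pt (h.conv_bl hI ht hW) (hP.met ⟨hτ, hI.le t ht⟩) hp

theorem FL.sc_le (h : FL L G I W) (hI : Bk I) (ht : t ∈ I) (hW : bl L.h univ L.o r ⊆ W)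
    (hp : p ∈ bl L.h univ L.o r) (hP : EvP l U g x r τ) (hτ : -τ ≤ t) {C : ℝ}
    (hC : ∀ᶠ n in (l : Filter ι), ∀ y ∈ bl (g n 0) (U n) (x n) r, Sc (g n t) y ≤ C) :
    Sc (G t) p ≤ C :=
  le_of_tendsto (h.sc hI ht hW hp hP hτ) ((hC.and (lim_maps L isCompact_singleton
    (fun _ h => by rw [mem_singleton_iff.1 h]; exact hp))).mono fun _ hn => hn.1 _ (hn.2 p rfl))

theorem FL.sec (h : FL L G I W) (hI : Bk I) (ht : t ∈ I) (hW : bl L.h univ L.o r ⊆ W)
    (hp : p ∈ bl L.h univ L.o r) (hP : EvP l U g x r τ) (hτ : -τ ≤ t)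
    (hs : ∀ ε > 0, ∀ᶠ n in (l : Filter ι), ∀ y ∈ bl (g n 0) (U n) (x n) r,
      SecGe (g n t) y (-ε)) : SecGe (G t) p 0 :=
  secGe_of_forall fun ε hε => conv_secGe (h.conv_bl hI ht hW) (hP.met ⟨hτ, hI.le t ht⟩) hp
    tendsto_const_nhds (((hs ε hε).and (lim_maps L isCompact_singleton
      (fun _ h => by rw [mem_singleton_iff.1 h]; exact hp))).mono fun _ hn => hn.1 _ (hn.2 p rfl))

theorem FL.sc_base (h : FL L G I W) (hI : Bk I) (ht : t ∈ I) (hW : bl L.h univ L.o r ⊆ W)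
    (hr : 0 < r) (hP : EvP l U g x r τ) (hτ : -τ ≤ t) :
    Tendsto (fun n => Sc (g n t) (x n)) l (𝓝 (Sc (G t) L.o)) :=
  (h.sc hI ht hW (mem_bl_self (mem_univ _) hr) hP hτ).congr' (L.base.mono fun _ hn => by rw [hn])

end lim

/-- complete limits with nonnegative curvature on a backward interval -/
theorem FL.cpl {L : Lim l U (fun n => g n 0) x ⊤} {G : ℝ → Ten E3 L.X} (h : FL L G I univ)
    (hI : Bk I) (hs : ∀ t ∈ I, ∀ p, SecGe (G t) p 0) (ht : t ∈ I) : Cpl (G t) univ := by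
  have e : G 0 = L.h := funext fun p => h.zero (mem_univ p)
  refine P216BF.rf_cpl_back h.rf (hI.le t ht) (hI.icc ht) (fun s h1 p _ => ?_)
    (e ▸ lim_cpl L)
  have h2 := hI.icc ht (Ioo_subset_Icc_self h1)
  simpa using P216BF.ricGe3 finrank_E3 (h.rf.met h2) (mem_univ p) (hs s h2 p)

theorem FL.anc {L : Lim l U (fun n => g n 0) x ⊤} {G : ℝ → Ten E3 L.X}
    (h : FL L G (Iic 0) univ) (hP : ∀ r > 0, ∀ τ > 0, EvP l U g x r τ)
    (hs : ∀ r > 0, ∀ t ≤ 0, ∀ ε > 0, ∀ᶠ n in (l : Filter ι), ∀ y ∈ bl (g n 0) (U n) (x n) r,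
      SecGe (g n t) y (-ε)) : Anc G univ :=
  have h1 : ∀ t ≤ 0, ∀ p, SecGe (G t) p 0 := fun t ht p =>
    let ⟨r, r0, _, hp⟩ := lim_mem L p
    h.sec bk_Iic ht (subset_univ _) hp (hP r r0 (1 - t) (by linarith)) (by linarith) (hs r r0 t ht)
  ⟨h.rf, hs_of_t2 _, isPreconnected_univ, fun _ ht => h.cpl bk_Iic h1 ht, fun t ht p _ => h1 t ht p⟩

end Vale.Agent.P216DC
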