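import Vale.Agent.P216DC.LimF
import Vale.Agent.P216DC.Resc

/-!
# P216DC: the blow up lemma, and the curvature of thick balls in ancient solutions
-/

open scoped Manifold ContDiff Topology ENNReal
open Set MeasureTheory Filter

set_option maxSynthPendingDepth 3
set_option linter.unusedSectionVars false

noncomputable section

namespace Vale.Agent.P216DC

open Vale.Agent.P216R Vale.Agent.P216U
open Vale.Agent.P216BF (finrank_E3)

theorem Loc.parB {M : Type} [TopologicalSpace M] [ChartedSpace E3 M] [IsManifold 𝓘(ℝ, E3) ∞ M]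
    {g : ℝ → Ten E3 M} {U : Set M} {x : M} {r τ C : ℝ} (h : Loc g U x r τ) (hC : 0 ≤ C)
    (hs : ∀ t ∈ Icc (-τ) 0, ∀ y ∈ bl (g 0) U x r, Sc (g t) y ≤ C) :
    ParB g U x 0 r τ (C + 3 * (1 / r ^ 2)) :=
  ⟨h.par, fun t ht y hy =>
    have h1 : t ∈ Icc (-τ) 0 := by simpa using ht
    P216BF.rmB3 finrank_E3 (RF.met h.par ht) hy (by positivity) hC (h.sec t h1 y hy)
      (hs t h1 y hy)⟩

theorem ev_le (a : ℝ) : ∀ᶠ n : ℕ in hyperfilter ℕ, a ≤ (n : ℝ) + 1 :=
  Nat.hyperfilter_le_atTop ((tendsto_natCast_atTop_atTop.eventually_ge_atTop a).mono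
    fun _ h => by linarith)

theorem bl_of (h0 : LIM0) (h1 : LIM1) (hB : BGC) (hA : AVR0) : BL := fun w w0 => by
  by_contra H
  push Not at H
  choose M _ _ _ _ _ g U x hl hs hv he using fun n : ℕ => H (n + 1) (by positivity)
  obtain ⟨c, c0, hB⟩ := hB
  have hP : ∀ r > 0, ∀ τ > 0, EvP (hyperfilter ℕ) U g x r τ := fun r _ τ _ =>
    ⟨7, ((ev_le r).and ((ev_le τ).and (ev_le 1))).mono fun n hn => ⟨(hl n).cpt.mono hn.1,
      parB_sub ((hl n).parB (by norm_num) (hs n)) (hl n).met (bl_mono hn.1) hn.2.1 (by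
        have : 1 / ((n : ℝ) + 1) ^ 2 ≤ 1 := (div_le_one (by positivity)).2 (one_le_pow₀ hn.2.2)
        linarith)⟩⟩
  have hV : ∀ r > 0, ∀ᶠ n in (hyperfilter ℕ : Filter ℕ), Vl (c * w) (g n 0) (U n) (x n) r :=
    fun r r0 => (ev_le r).mono fun n hn => hB _ _ _ _ _ _ _ (hl n).met (hl n).hs (hl n).cpt
      ((hl n).sec 0 ⟨by have := n.cast_nonneg (α := ℝ); linarith, le_rfl⟩) w0.le r0 hn (hv n)
  obtain ⟨L, G, hG, e⟩ := exists_fl h0 h1 (ρ := ⊤) ⟨fun n => (hl n).met, fun n => (hl n).hs,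
    fun n => (hl n).mem, fun r r0 _ => ⟨1, one_pos, hP r r0 1 one_pos⟩,
    _, mul_pos c0 w0, 1, one_pos, ENNReal.ofReal_lt_top, hV 1 one_pos⟩ bk_Iic
    fun r r0 _ τ τ0 _ => hP r r0 τ τ0
  have h2 := hG.anc hP fun r _ t ht ε ε0 => by
    filter_upwards [ev_le r, ev_le (-t), ev_le 1, ev_le (1 / ε)] with n a b c d y hy
    have h3 : t ∈ Icc (-((n : ℝ) + 1)) 0 := ⟨by linarith, ht⟩
    refine P216BF.secGe_mono (RF.met (hl n).par (by simpa using h3)) (bl_mono a hy)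
      ((hl n).sec t h3 y (bl_mono a hy)) (neg_le_neg ?_)
    rw [div_le_iff₀ (by positivity)]
    rw [div_le_iff₀ ε0] at d
    nlinarith
  have h3 := hA _ G univ L.o _ h2 ⟨4, fun t ht p _ =>
    let ⟨r, r0, _, hp⟩ := lim_mem L p
    hG.sc_le bk_Iic ht (subset_univ _) hp (hP r r0 (1 - t) (by linarith)) (by linarith)
      (((ev_le r).and (ev_le (-t))).mono fun n hn y hy =>
        hs n t ⟨by linarith [hn.2], ht⟩ y (bl_mono hn.1 hy))⟩ (mem_univ _) (mul_pos c0 w0)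
    fun r r0 => e ▸ conv_vl L.conv (.of_forall fun n => ⟨(hl n).met, (hl n).hs⟩) (mem_univ _) r0
      (lim_cpt L le_top) fun s h => ((hV s h.1).and L.base).mono fun n hn => hn.2.symm ▸ hn.1
  have h4 := hG.sc_base bk_Iic self_mem_Iic (subset_univ _) one_pos (hP 1 one_pos 1 one_pos)
    (by norm_num)
  simp only [he, h3] at h4
  exact one_ne_zero (tendsto_nhds_unique tendsto_const_nhds h4)

theorem th_of (hL : BL) (hB : BGC) (hH : HARN) : TH := fun w w0 => by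
  obtain ⟨c, c0, hB⟩ := hB
  obtain ⟨A, A0, hL⟩ := hL (c * (w / 8)) (by positivity)
  refine ⟨4 * A ^ 2, by positivity, fun M _ _ _ _ _ g U x r h hb hx r0 hv => ?_⟩
  by_contra H
  push Not at H
  have q0 : 0 < Sc (g 0) x := lt_trans (by positivity) H
  obtain ⟨z, hz, h1, h2, h3⟩ := P216BF.pick_space (d := dd (g 0) U) (Q := Sc (g 0)) (S := U) hx
    dd_self.le (fun z hz w hw => dd_triangle (h.ed_ne le_rfl hx hz) (h.ed_ne le_rfl hz hw)) A0.le
    q0 fun z hz _ => hb.choose_spec 0 le_rfl z hz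
  have Q0 := q0.trans_le h2
  have h4 : 2 * (A / √(Sc (g 0) x)) ≤ r := by
    rw [← mul_div_assoc, div_le_iff₀' (Real.sqrt_pos.2 q0), ← div_le_iff₀ r0]
    refine Real.le_sqrt_of_sq_le (le_trans (le_of_eq ?_) H.le)
    ring
  have h5 : 0 < A / √(Sc (g 0) z) := div_pos A0 (Real.sqrt_pos.2 Q0)
  have h6 : 0 ≤ dd (g 0) U x z := dd_nonneg
  refine hL M (resc g (Sc (g 0) z) 0) U z ((h.resc Q0 le_rfl).loc hz A A) (fun t ht y hy => ?_)
    ?_ (by rw [resc_zero, sc_sc Q0, div_self Q0.ne'])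
  · rw [resc_zero, bl_sc Q0] at hy
    refine (sc_sc Q0).trans_le ((div_le_iff₀ Q0).2 (le_trans ?_
      (h3 y (bl_subset hy) (mem_bl_iff.1 hy).2.le)))
    have h7 := resc_time Q0 le_rfl ht.2
    exact (hH M g U h hb y (bl_subset hy)).1 h7 self_mem_Iic h7
  · rw [resc_zero, vl_sc (h.met le_rfl) Q0 (h.cpt le_rfl hz _)]
    refine hB M _ U z _ (2 * r) _ (h.met le_rfl) h.hs (h.cpt le_rfl hz _)
      (fun y hy => h.secGe le_rfl (bl_subset hy) (by positivity)) (by positivity) h5 (by linarith)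
      (hv.of_sub (P216BF.bl_sub_bl (a := r) ((mem_cbl_iff r0.le).2 ⟨h.ed_ne le_rfl hz hx, ?_⟩)
        r0.le (by linarith)) (le_of_eq (by ring)))
    rw [dd_comm]
    linarith

end Vale.Agent.P216DC
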