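import Vale.Agent.P216DC.Thin
import Vale.Agent.P216DC.Stm

/-!
# P216DC: universal estimates for kappa solutions
-/

open scoped Manifold ContDiff Topology ENNReal
open Set MeasureTheory Filter

set_option maxSynthPendingDepth 3
set_option linter.unusedSectionVars false

noncomputable section

namespace Vale.Agent.P216DC

open Vale.Agent.P216R

/-- bounded curvature at bounded distance from a thick unit ball -/
theorem th_ball (hT : TH) (hH : HARN) {v : ℝ} (v0 : 0 < v) : ∃ C : ℝ → ℝ, (∀ A, 0 < C A) ∧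
    ∀ (M : Type) [TopologicalSpace M] [ChartedSpace E3 M] [IsManifold 𝓘(ℝ, E3) ∞ M]
      [MeasurableSpace M] [BorelSpace M] (g : ℝ → Ten E3 M) (U : Set M) (x : M),
      Anc g U → Bdd g U → Vl v (g 0) U x 1 →
      ∀ A, ∀ y ∈ bl (g 0) U x A, ∀ t ≤ 0, Sc (g t) y ≤ C A := by
  choose K K0 hK using fun A : ℝ => hT (v / (|A| + 1) ^ 3) (by positivity)
  refine ⟨K, K0, fun M _ _ _ _ _ g U x h hb hv A y hy t ht => ?_⟩
  have A0 := pos_of_mem_bl hy
  have h1 := hK A M g U y (A + 1) h hb (bl_subset hy) (by linarith)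
    (hv.of_sub (P216BF.bl_sub_bl' (mem_bl_comm.1 hy) le_rfl)
      (le_of_eq (by rw [abs_of_pos A0]; field_simp)))
  exact ((hH M g U h hb y (bl_subset hy)).1 ht self_mem_Iic ht).trans
    (h1.trans (div_le_self (K0 A).le (one_le_pow₀ (by linarith))))

/-- derivative bounds from curvature bounds -/
theorem anc_shi (hS : SHI) (k : ℕ) (C : ℝ) : ∃ D,
    ∀ (M : Type) [TopologicalSpace M] [ChartedSpace E3 M] [IsManifold 𝓘(ℝ, E3) ∞ M]
      (g : ℝ → Ten E3 M) (U : Set M) (y : M), Anc g U → y ∈ U →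
      (∀ z ∈ bl (g 0) U y 1, ∀ t ≤ 0, Sc (g t) z ≤ C) → ∀ t ≤ 0, RmB (g t) k y D := by
  obtain ⟨D, hD⟩ := hS k C 1 1 1 one_pos one_pos
  exact ⟨D, fun M _ _ _ g U y h hy hC t ht => hD M g U y t (h.met ht) h.hs (h.cpt ht hy 1)
    (h.parB ht (fun s hs z hz => hC z ((h.ed_anti ht le_rfl y z).trans_lt hz) s (hs.trans ht)) 1)
    t ⟨by linarith, le_rfl⟩ y (mem_bl_self hy (by norm_num))⟩

/-- the curvature at the centre of a thick ball is comparable to the curvature nearby -/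
theorem th_low (hT : TH) (hH : HARN) (hS : SHI) (hR : RT) {v : ℝ} (v0 : 0 < v) : ∃ q > 0,
    ∀ (M : Type) [TopologicalSpace M] [ChartedSpace E3 M] [IsManifold 𝓘(ℝ, E3) ∞ M]
      [MeasurableSpace M] [BorelSpace M] (g : ℝ → Ten E3 M) (U : Set M) (x z : M),
      Anc g U → Bdd g U → Vl v (g 0) U x 1 → z ∈ bl (g 0) U x 2 → 1 / 4 ≤ Sc (g 0) z →
      q ≤ Sc (g 0) x := by
  obtain ⟨C, C0, hC⟩ := th_ball hT hH v0
  obtain ⟨D, hD⟩ := anc_shi hS 2 (C 3)
  obtain ⟨c, c0, hR⟩ := hR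
  set Λ := c * (|D| + C 3 ^ 2) with hΛ
  have Λ0 : 0 < Λ := by have := C0 3; positivity
  set δ := 1 / (8 * Λ) with hδ
  have δ0 : 0 < δ := by positivity
  refine ⟨1 / 8 / Real.exp ((Real.exp (C 3 / 2 * δ) * 2) ^ 2 / (2 * δ)), by positivity,
    fun M _ _ _ _ _ g U x z h hb hv hz h4 => ?_⟩
  have zU := bl_subset hz
  have h1 := hC M g U x h hb hv 3
  have h2 := hD M g U z h zU fun y hy => h1 y (P216BF.bl_sub_bl' hz (by norm_num) hy)
  have h3 := (convex_Iic (0 : ℝ)).norm_image_sub_le_of_norm_derivWithin_le (C := Λ)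
    ((h.rf.toFam.contDiffOn_time_Sc zU).differentiableOn (by simp))
    (fun t ht => hR M g _ U z t (C 3) |D| h.rf (convex_Iic 0) (by simp) ht zU
      (h.rmB ht zU (h1 z (bl_mono (by norm_num) hz) t ht))
      (P216BF.rmB_mono (h2 t ht) (le_abs_self D)))
    (show -δ ∈ Iic (0 : ℝ) from neg_nonpos.2 δ0.le) self_mem_Iic
  rw [Real.norm_eq_abs, Real.norm_eq_abs, sub_neg_eq_add, zero_add, abs_of_pos δ0,
    show Λ * δ = 1 / 8 by rw [hδ]; field_simp] at h3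
  have xU := (mem_of_ed_ne (ne_top_of_lt hz)).1
  have h5 := (hH M g U h hb z zU).2 x xU (-δ) 0 (by linarith) le_rfl
  have h6 := P216BF.dd_le_of_ed (Real.exp_pos _).le (ne_top_of_lt hz)
    (h.ed_back (neg_nonpos.2 δ0.le) le_rfl (C := C 3)
      (fun u hu y hy => h1 y (bl_mono (by norm_num) hy) u hu.2.le) hz)
  rw [sub_neg_eq_add, zero_add] at h5 h6
  rw [div_le_iff₀' (Real.exp_pos _)]
  refine le_trans (by linarith [(abs_le.1 h3).2]) (h5.trans ?_)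
  have h7 : dd (g (-δ)) U z x ≤ Real.exp (C 3 / 2 * δ) * 2 := by
    rw [dd_comm]
    exact h6.trans (mul_le_mul_of_nonneg_left (mem_bl_iff.1 hz).2.le (Real.exp_pos _).le)
  have h8 := h.sc_nonneg le_rfl xU
  have h9 : 0 ≤ dd (g (-δ)) U z x := dd_nonneg
  gcongr

/-- the curvature radius -/
theorem exists_rad {M : Type} [TopologicalSpace M] [ChartedSpace E3 M] {g : Ten E3 M} {U : Set M}
    {x : M} {C : ℝ} (hx : x ∈ U) (h1 : Sc g x = 1) (hC : ∀ y ∈ U, Sc g y ≤ C) :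
    ∃ r > 0, r ≤ 1 ∧ (∀ y ∈ bl g U x r, Sc g y ≤ 1 / r ^ 2) ∧
      ∃ z ∈ bl g U x (2 * r), 1 / (2 * r) ^ 2 ≤ Sc g z := by
  by_contra H
  push Not at H
  have C1 : 1 ≤ C := h1 ▸ hC x hx
  have s0 : 0 < √C := Real.sqrt_pos.2 (by linarith)
  have key : ∀ n : ℕ, ∀ y ∈ bl g U x (2 ^ n / √C), Sc g y ≤ 1 / (2 ^ n / √C) ^ 2 := fun n => by
    induction n with
    | zero => intro y hy; simpa [Real.sq_sqrt (by linarith : 0 ≤ C)] using hC y (bl_subset hy)
    | succ n ih =>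
      have r0 : (0 : ℝ) < 2 ^ n / √C := by positivity
      have h2 := h1 ▸ ih x (mem_bl_self hx r0)
      rw [le_div_iff₀ (by positivity), one_mul, sq_le_one_iff₀ r0.le] at h2
      rw [show (2 : ℝ) ^ (n + 1) / √C = 2 * (2 ^ n / √C) by ring]
      exact fun y hy => (H _ r0 h2 ih y hy).le
  obtain ⟨n, hn⟩ := pow_unbounded_of_one_lt √C (one_lt_two (α := ℝ))
  have r0 : (0 : ℝ) < 2 ^ n / √C := by positivity
  have h2 := h1 ▸ key n x (mem_bl_self hx r0)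
  rw [le_div_iff₀ (by positivity), one_mul, sq_le_one_iff₀ r0.le, div_le_one s0] at h2
  linarith

theorem ks_vl (hT : TH) (hH : HARN) (hS : SHI) (hR : RT) {κ : ℝ} (κ0 : 0 < κ) : ∃ v > 0,
    ∀ (M : Type) [TopologicalSpace M] [ChartedSpace E3 M] [IsManifold 𝓘(ℝ, E3) ∞ M]
      [MeasurableSpace M] [BorelSpace M] (g : ℝ → Ten E3 M) (U : Set M) (x : M),
      Anc g U → Bdd g U → (∀ r > 0, NC κ (g 0) U x r) → x ∈ U → Sc (g 0) x = 1 →
      Vl v (g 0) U x 1 := by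
  obtain ⟨q, q0, hq⟩ := th_low hT hH hS hR κ0
  refine ⟨κ * √q ^ 3, by have := Real.sqrt_pos.2 q0; positivity,
    fun M _ _ _ _ _ g U x h hb hn hx h1 => ?_⟩
  obtain ⟨r, r0, r1, h2, z, hz, h3⟩ := exists_rad hx h1 (hb.choose_spec 0 le_rfl)
  have hv := hn r r0 h2
  have Q0 : 0 < 1 / r ^ 2 := by positivity
  have e : √(1 / r ^ 2) = 1 / r := by rw [← one_div_pow, Real.sqrt_sq (by positivity)]
  have h4 := hq M (resc g (1 / r ^ 2) 0) U x z (h.resc Q0 le_rfl) (hb.resc Q0 le_rfl)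
    (by rwa [resc_zero, vl_sc (h.met le_rfl) Q0 (h.cpt le_rfl hx _), e, one_div_one_div])
    (by rwa [resc_zero, bl_sc Q0, e, div_div_eq_mul_div, div_one])
    (by rw [resc_zero, sc_sc Q0, le_div_iff₀ Q0]; exact le_trans (le_of_eq (by ring)) h3)
  rw [resc_zero, sc_sc Q0, h1, one_div_one_div] at h4
  refine hv.of_sub (bl_mono r1) ?_
  rw [one_pow, mul_one]
  have := Real.sqrt_le_iff.2 ⟨r0.le, h4⟩
  gcongr

theorem uni_of (hT : TH) (hH : HARN) (hS : SHI) (hR : RT) : UNI := fun κ κ0 => by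
  obtain ⟨v, v0, hv⟩ := ks_vl hT hH hS hR κ0
  obtain ⟨C, C0, hC⟩ := th_ball hT hH v0
  choose D hD using anc_shi hS
  refine ⟨v, C, fun k A => D k (C (A + 1)), v0, fun M _ _ _ _ _ g U x h hx h1 => ?_⟩
  have h2 := hv M g U x h.toAnc h.bdd (h.nc 0 le_rfl x hx) hx h1
  have h3 := hC M g U x h.toAnc h.bdd h2
  refine ⟨h2, fun A y hy => ⟨?_, fun t ht => ⟨h3 A y hy t ht, fun k => hD k _ M g U y h.toAnc
    (bl_subset hy) (fun z hz => h3 _ z (P216BF.bl_sub_bl' hy le_rfl hz)) t ht⟩⟩⟩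
  have yU := bl_subset hy
  have A0 := pos_of_mem_bl hy
  have Q0 := h.pos 0 le_rfl y yU
  rcases le_total 1 (Sc (g 0) y) with h4 | h4
  · exact ((div_le_one (C0 A)).2 (h1 ▸ h3 A x (mem_bl_self hx A0) 0 le_rfl)).trans h4
  · have h5 := h.resc Q0 le_rfl
    have h6 := hC M _ U y h5.toAnc h5.bdd (hv M _ U y h5.toAnc h5.bdd (h5.nc 0 le_rfl y yU) yU
      (by rw [resc_zero, sc_sc Q0, div_self Q0.ne'])) A x (by
        rw [resc_zero, bl_sc Q0]
        exact bl_mono (le_div_self A0.le (Real.sqrt_pos.2 Q0) (Real.sqrt_le_one.2 h4))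
          (mem_bl_comm.1 hy)) 0 le_rfl
    rw [resc_zero, sc_sc Q0, h1] at h6
    exact (one_div_le (C0 A) Q0).2 h6

end Vale.Agent.P216DC
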